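import Mathlib.Analysis.Calculus.LineDeriv.IntegrationByParts
import Mathlib.Analysis.Calculus.FDeriv.Symmetric
import Mathlib.Analysis.Calculus.ContDiff.Operations
import Mathlib.Analysis.Complex.Basic
import Mathlib.Tactic
import Vale.Agent.P272.K.Stmt

/-!
# Wirtinger calculus on `ℂⁿ`

`dz i F` and `dzb i F` are the derivatives of `F : ℂⁿ → ℂ` with respect to `z_i` and its
conjugate, defined from the real Frechet derivative.
-/

open scoped ContDiff Topology ComplexConjugate
open MeasureTheory Set Filter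

noncomputable section

namespace Vale.Agent.P272.K.INT

variable {n : ℕ}

lemma dz_eq (i : Fin n) (F : Cm n → ℂ) (z : Cm n) : dz i F z =
    (1 / 2 : ℂ) * (fderiv ℝ F z (Pi.single i 1)
      - Complex.I * fderiv ℝ F z (Pi.single i Complex.I)) := by
  unfold dz; ring

lemma dzb_eq (i : Fin n) (F : Cm n → ℂ) (z : Cm n) : dzb i F z =
    (1 / 2 : ℂ) * (fderiv ℝ F z (Pi.single i 1)
      + Complex.I * fderiv ℝ F z (Pi.single i Complex.I)) := by
  unfold dzb; ring

lemma dz_fun_eq (i : Fin n) (F : Cm n → ℂ) : dz i F = fun z =>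
    (1 / 2 : ℂ) * (fderiv ℝ F z (Pi.single i 1)
      - Complex.I * fderiv ℝ F z (Pi.single i Complex.I)) := by
  funext z; exact dz_eq i F z

lemma dzb_fun_eq (i : Fin n) (F : Cm n → ℂ) : dzb i F = fun z =>
    (1 / 2 : ℂ) * (fderiv ℝ F z (Pi.single i 1)
      + Complex.I * fderiv ℝ F z (Pi.single i Complex.I)) := by
  funext z; exact dzb_eq i F z

section basic

variable {F G : Cm n → ℂ} {z : Cm n} {i j : Fin n}

lemma dz_congr (h : F =ᶠ[𝓝 z] G) : dz i F z = dz i G z := by
  simp only [dz, h.fderiv_eq]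

lemma dzb_congr (h : F =ᶠ[𝓝 z] G) : dzb i F z = dzb i G z := by
  simp only [dzb, h.fderiv_eq]

lemma dz_congr' (h : F =ᶠ[𝓝 z] G) : dz i F =ᶠ[𝓝 z] dz i G := by
  filter_upwards [h.eventuallyEq_nhds] with w hw using dz_congr hw

lemma dzb_congr' (h : F =ᶠ[𝓝 z] G) : dzb i F =ᶠ[𝓝 z] dzb i G := by
  filter_upwards [h.eventuallyEq_nhds] with w hw using dzb_congr hw

@[simp] lemma dz_const (c : ℂ) : dz i (fun _ => c) z = 0 := by simp [dz]

@[simp] lemma dzb_const (c : ℂ) : dzb i (fun _ => c) z = 0 := by simp [dzb]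

lemma dz_add (hF : DifferentiableAt ℝ F z) (hG : DifferentiableAt ℝ G z) :
    dz i (fun w => F w + G w) z = dz i F z + dz i G z := by
  simp only [dz, fderiv_fun_add hF hG, add_apply]; ring

lemma dzb_add (hF : DifferentiableAt ℝ F z) (hG : DifferentiableAt ℝ G z) :
    dzb i (fun w => F w + G w) z = dzb i F z + dzb i G z := by
  simp only [dzb, fderiv_fun_add hF hG, add_apply]; ring

lemma dz_neg : dz i (fun w => - F w) z = - dz i F z := by
  simp only [dz, fderiv_fun_neg, neg_apply]; ring

lemma dzb_neg : dzb i (fun w => - F w) z = - dzb i F z := by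
  simp only [dzb, fderiv_fun_neg, neg_apply]; ring

lemma dz_sub (hF : DifferentiableAt ℝ F z) (hG : DifferentiableAt ℝ G z) :
    dz i (fun w => F w - G w) z = dz i F z - dz i G z := by
  simp only [dz, fderiv_fun_sub hF hG, sub_apply]; ring

lemma dzb_sub (hF : DifferentiableAt ℝ F z) (hG : DifferentiableAt ℝ G z) :
    dzb i (fun w => F w - G w) z = dzb i F z - dzb i G z := by
  simp only [dzb, fderiv_fun_sub hF hG, sub_apply]; ring

lemma dz_mul (hF : DifferentiableAt ℝ F z) (hG : DifferentiableAt ℝ G z) :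
    dz i (fun w => F w * G w) z = dz i F z * G z + F z * dz i G z := by
  simp only [dz, fderiv_fun_mul hF hG, add_apply,
    smul_apply, smul_eq_mul]; ring

lemma dzb_mul (hF : DifferentiableAt ℝ F z) (hG : DifferentiableAt ℝ G z) :
    dzb i (fun w => F w * G w) z = dzb i F z * G z + F z * dzb i G z := by
  simp only [dzb, fderiv_fun_mul hF hG, add_apply,
    smul_apply, smul_eq_mul]; ring

lemma dz_const_mul (c : ℂ) (hF : DifferentiableAt ℝ F z) :
    dz i (fun w => c * F w) z = c * dz i F z := by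
  rw [dz_mul (differentiableAt_const c) hF]; simp

lemma dzb_const_mul (c : ℂ) (hF : DifferentiableAt ℝ F z) :
    dzb i (fun w => c * F w) z = c * dzb i F z := by
  rw [dzb_mul (differentiableAt_const c) hF]; simp

lemma dz_sum {ι : Type*} (s : Finset ι) {F : ι → Cm n → ℂ}
    (h : ∀ k ∈ s, DifferentiableAt ℝ (F k) z) :
    dz i (fun w => ∑ k ∈ s, F k w) z = ∑ k ∈ s, dz i (F k) z := by
  classical
  induction s using Finset.induction_on with
  | empty => simp
  | insert a s ha ih =>
    simp only [Finset.sum_insert ha]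
    rw [dz_add (h a (Finset.mem_insert_self a s))
      (DifferentiableAt.fun_sum fun k hk => h k (Finset.mem_insert_of_mem hk)),
      ih fun k hk => h k (Finset.mem_insert_of_mem hk)]

lemma dzb_sum {ι : Type*} (s : Finset ι) {F : ι → Cm n → ℂ}
    (h : ∀ k ∈ s, DifferentiableAt ℝ (F k) z) :
    dzb i (fun w => ∑ k ∈ s, F k w) z = ∑ k ∈ s, dzb i (F k) z := by
  classical
  induction s using Finset.induction_on with
  | empty => simp
  | insert a s ha ih =>
    simp only [Finset.sum_insert ha]
    rw [dzb_add (h a (Finset.mem_insert_self a s))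
      (DifferentiableAt.fun_sum fun k hk => h k (Finset.mem_insert_of_mem hk)),
      ih fun k hk => h k (Finset.mem_insert_of_mem hk)]

lemma fderiv_conj (v : Cm n) : fderiv ℝ (fun w => conj (F w)) z v = conj (fderiv ℝ F z v) := by
  have h : fderiv ℝ (fun w => conj (F w)) z
      = (Complex.conjCLE : ℂ →L[ℝ] ℂ).comp (fderiv ℝ F z) :=
    Complex.conjCLE.comp_fderiv
  rw [h]; simp

lemma dz_conj : dz i (fun w => conj (F w)) z = conj (dzb i F z) := by
  simp only [dz, dzb, fderiv_conj, map_mul, map_add, map_div₀, Complex.conj_I,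
    map_ofNat]
  ring

lemma dzb_conj : dzb i (fun w => conj (F w)) z = conj (dz i F z) := by
  simp only [dz, dzb, fderiv_conj, map_mul, map_sub, map_div₀, Complex.conj_I,
    map_ofNat]
  ring

/-- The real derivative through the Wirtinger derivatives in a basis direction. -/
lemma fderiv_ev : fderiv ℝ F z (Pi.single i 1) = dz i F z + dzb i F z := by
  simp only [dz, dzb]; ring

lemma fderiv_I_ev : fderiv ℝ F z (Pi.single i Complex.I) = Complex.I * (dz i F z - dzb i F z) := by
  simp only [dz, dzb]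
  linear_combination (fderiv ℝ F z (Pi.single i Complex.I)) * Complex.I_mul_I

lemma fderiv_single (c : ℂ) :
    fderiv ℝ F z (Pi.single i c) = c * dz i F z + conj c * dzb i F z := by
  have h : (Pi.single i c : Cm n)
      = (c.re : ℝ) • (Pi.single i 1 : Cm n) + (c.im : ℝ) • (Pi.single i Complex.I : Cm n) := by
    rw [← Pi.single_smul, ← Pi.single_smul, ← Pi.single_add]
    congr 1
    simp [Complex.re_add_im]
  rw [h, map_add, map_smul, map_smul, fderiv_ev, fderiv_I_ev]
  conv_rhs => rw [← Complex.re_add_im c]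
  simp only [Complex.real_smul, map_add, map_mul, Complex.conj_ofReal, Complex.conj_I]
  ring

lemma fderiv_apply (v : Cm n) :
    fderiv ℝ F z v = ∑ i, (v i * dz i F z + conj (v i) * dzb i F z) := by
  have hv : v = ∑ i, (Pi.single i (v i) : Cm n) := by
    ext j; simp [Finset.sum_apply, Pi.single_apply]
  conv_lhs => rw [hv]
  rw [map_sum]
  exact Finset.sum_congr rfl fun i _ => fderiv_single _

end basic

section smooth

variable {F G : Cm n → ℂ} {z : Cm n} {i j : Fin n}

lemma contDiffAt_dz {m k : WithTop ℕ∞} (hF : ContDiffAt ℝ k F z) (h : m + 1 ≤ k) :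
    ContDiffAt ℝ m (dz i F) z := by
  have h1 : ContDiffAt ℝ m (fderiv ℝ F) z := hF.fderiv_right h
  rw [dz_fun_eq]
  exact contDiffAt_const.mul ((h1.clm_apply contDiffAt_const).sub
    (contDiffAt_const.mul (h1.clm_apply contDiffAt_const)))

lemma contDiffAt_dzb {m k : WithTop ℕ∞} (hF : ContDiffAt ℝ k F z) (h : m + 1 ≤ k) :
    ContDiffAt ℝ m (dzb i F) z := by
  have h1 : ContDiffAt ℝ m (fderiv ℝ F) z := hF.fderiv_right h
  rw [dzb_fun_eq]
  exact contDiffAt_const.mul ((h1.clm_apply contDiffAt_const).add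
    (contDiffAt_const.mul (h1.clm_apply contDiffAt_const)))

lemma smooth_dz (hF : ContDiffAt ℝ ∞ F z) : ContDiffAt ℝ ∞ (dz i F) z :=
  contDiffAt_dz hF (by norm_num)

lemma smooth_dzb (hF : ContDiffAt ℝ ∞ F z) : ContDiffAt ℝ ∞ (dzb i F) z :=
  contDiffAt_dzb hF (by norm_num)

lemma fderiv_fderiv_apply (hF : ContDiffAt ℝ 2 F z) (v w : Cm n) :
    fderiv ℝ (fun x => fderiv ℝ F x v) z w = fderiv ℝ (fderiv ℝ F) z w v := by
  have h1 : DifferentiableAt ℝ (fderiv ℝ F) z :=
    (hF.fderiv_right (m := 1) (by norm_num)).differentiableAt (by norm_num)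
  rw [fderiv_clm_apply h1 (differentiableAt_const v)]
  simp

lemma differentiableAt_fderiv_apply (hF : ContDiffAt ℝ 2 F z) (v : Cm n) :
    DifferentiableAt ℝ (fun x => fderiv ℝ F x v) z := by
  have h1 : DifferentiableAt ℝ (fderiv ℝ F) z :=
    (hF.fderiv_right (m := 1) (by norm_num)).differentiableAt (by norm_num)
  exact h1.clm_apply (differentiableAt_const v)

lemma fderiv_dz (hF : ContDiffAt ℝ 2 F z) (v : Cm n) :
    fderiv ℝ (dz i F) z v = (1 / 2 : ℂ) * (fderiv ℝ (fderiv ℝ F) z v (Pi.single i 1)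
      - Complex.I * fderiv ℝ (fderiv ℝ F) z v (Pi.single i Complex.I)) := by
  have h1 := differentiableAt_fderiv_apply hF (Pi.single i 1)
  have h2 := differentiableAt_fderiv_apply hF (Pi.single i Complex.I)
  rw [dz_fun_eq, fderiv_const_mul (h1.fun_sub (h2.const_mul _)), fderiv_fun_sub h1 (h2.const_mul _),
    fderiv_const_mul h2]
  simp only [smul_apply, sub_apply, smul_eq_mul,
    fderiv_fderiv_apply hF]

lemma fderiv_dzb (hF : ContDiffAt ℝ 2 F z) (v : Cm n) :
    fderiv ℝ (dzb i F) z v = (1 / 2 : ℂ) * (fderiv ℝ (fderiv ℝ F) z v (Pi.single i 1)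
      + Complex.I * fderiv ℝ (fderiv ℝ F) z v (Pi.single i Complex.I)) := by
  have h1 := differentiableAt_fderiv_apply hF (Pi.single i 1)
  have h2 := differentiableAt_fderiv_apply hF (Pi.single i Complex.I)
  rw [dzb_fun_eq, fderiv_const_mul (h1.fun_add (h2.const_mul _)), fderiv_fun_add h1 (h2.const_mul _),
    fderiv_const_mul h2]
  simp only [smul_apply, add_apply, smul_eq_mul,
    fderiv_fderiv_apply hF]

lemma symm_fderiv (hF : ContDiffAt ℝ 2 F z) (v w : Cm n) :
    fderiv ℝ (fderiv ℝ F) z v w = fderiv ℝ (fderiv ℝ F) z w v :=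
  (hF.isSymmSndFDerivAt (by simp)).eq v w

lemma dz_dz_comm (hF : ContDiffAt ℝ 2 F z) : dz i (dz j F) z = dz j (dz i F) z := by
  rw [dz_eq i (dz j F), dz_eq j (dz i F)]
  simp only [fderiv_dz hF]
  rw [symm_fderiv hF (Pi.single i 1) (Pi.single j 1),
    symm_fderiv hF (Pi.single i 1) (Pi.single j Complex.I),
    symm_fderiv hF (Pi.single i Complex.I) (Pi.single j 1),
    symm_fderiv hF (Pi.single i Complex.I) (Pi.single j Complex.I)]
  ring

lemma dzb_dzb_comm (hF : ContDiffAt ℝ 2 F z) : dzb i (dzb j F) z = dzb j (dzb i F) z := by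
  rw [dzb_eq i (dzb j F), dzb_eq j (dzb i F)]
  simp only [fderiv_dzb hF]
  rw [symm_fderiv hF (Pi.single i 1) (Pi.single j 1),
    symm_fderiv hF (Pi.single i 1) (Pi.single j Complex.I),
    symm_fderiv hF (Pi.single i Complex.I) (Pi.single j 1),
    symm_fderiv hF (Pi.single i Complex.I) (Pi.single j Complex.I)]
  ring

lemma dz_dzb_comm (hF : ContDiffAt ℝ 2 F z) : dz i (dzb j F) z = dzb j (dz i F) z := by
  rw [dz_eq i (dzb j F), dzb_eq j (dz i F)]
  simp only [fderiv_dz hF, fderiv_dzb hF]
  rw [symm_fderiv hF (Pi.single i 1) (Pi.single j 1),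
    symm_fderiv hF (Pi.single i 1) (Pi.single j Complex.I),
    symm_fderiv hF (Pi.single i Complex.I) (Pi.single j 1),
    symm_fderiv hF (Pi.single i Complex.I) (Pi.single j Complex.I)]
  ring

end smooth

section integral

variable {F G : Cm n → ℂ}

lemma integral_fderiv_eq_zero (hF : ContDiff ℝ 1 F) (hc : HasCompactSupport F) (v : Cm n) :
    ∫ z, fderiv ℝ F z v = 0 := by
  have h1 : Continuous (fun z => fderiv ℝ F z v) :=
    (hF.continuous_fderiv (by norm_num)).clm_apply continuous_const
  have h2 : HasCompactSupport (fun z => fderiv ℝ F z v) := hc.fderiv_apply (𝕜 := ℝ) v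
  have := integral_mul_fderiv_eq_neg_fderiv_mul_of_integrable (μ := (volume : Measure (Cm n)))
    (f := fun _ => (1 : ℂ)) (g := F) (v := v)
    (by simp)
    (by simpa using h1.integrable_of_hasCompactSupport h2)
    (by simpa using hF.continuous.integrable_of_hasCompactSupport hc)
    (by fun_prop) (fun x _ => hF.differentiable (by norm_num) x)
  simpa using this

lemma integral_dz_eq_zero (hF : ContDiff ℝ 1 F) (hc : HasCompactSupport F) (i : Fin n) :
    ∫ z, dz i F z = 0 := by
  have h1 : ∀ v, Integrable (fun z => fderiv ℝ F z v) := fun v =>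
    ((hF.continuous_fderiv (by norm_num)).clm_apply
      continuous_const).integrable_of_hasCompactSupport (hc.fderiv_apply (𝕜 := ℝ) v)
  simp only [dz_eq]
  rw [integral_const_mul, integral_sub (h1 _) ((h1 _).const_mul _), integral_const_mul,
    integral_fderiv_eq_zero hF hc, integral_fderiv_eq_zero hF hc]
  simp

lemma integral_dzb_eq_zero (hF : ContDiff ℝ 1 F) (hc : HasCompactSupport F) (i : Fin n) :
    ∫ z, dzb i F z = 0 := by
  have h1 : ∀ v, Integrable (fun z => fderiv ℝ F z v) := fun v =>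
    ((hF.continuous_fderiv (by norm_num)).clm_apply
      continuous_const).integrable_of_hasCompactSupport (hc.fderiv_apply (𝕜 := ℝ) v)
  simp only [dzb_eq]
  rw [integral_const_mul, integral_add (h1 _) ((h1 _).const_mul _), integral_const_mul,
    integral_fderiv_eq_zero hF hc, integral_fderiv_eq_zero hF hc]
  simp

end integral

end Vale.Agent.P272.K.INT
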