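import Mathlib.Geometry.Manifold.PartitionOfUnity
import Vale.Agent.P272.K.Iface
import Vale.Agent.P272.K.INT.Wirt

/-! Smooth finite partitions of unity by charts; transition maps. -/

open scoped Manifold ContDiff ComplexOrder ComplexConjugate Topology
open MeasureTheory Set Filter

noncomputable section

namespace Vale.Agent.P272.K.INT

variable {n : ℕ} {X : Type*} [TopologicalSpace X] [ChartedSpace (Cm n) X]

section
variable [IsManifold 𝓘(ℂ, Cm n) ω X]

lemma chart_contMDiffAt {e : Chart n X} {x : X} (hx : At e x) :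
    ContMDiffAt 𝓘(ℂ, Cm n) 𝓘(ℂ, Cm n) ω e x :=
  (contMDiffOn_of_mem_maximalAtlas (IsManifold.subset_maximalAtlas hx.1)).contMDiffAt
    (e.open_source.mem_nhds hx.2)

lemma chart_symm_contMDiffAt {e : Chart n X} (he : e ∈ atlas (Cm n) X)
    {w : Cm n} (hw : w ∈ e.target) : ContMDiffAt 𝓘(ℂ, Cm n) 𝓘(ℂ, Cm n) ω e.symm w :=
  (contMDiffOn_symm_of_mem_maximalAtlas (IsManifold.subset_maximalAtlas he)).contMDiffAt
    (e.open_target.mem_nhds hw)

/-- transition maps are holomorphic -/
lemma transition_contDiffAt {e e' : Chart n X} {x : X} (hx : At e x) (hx' : At e' x) :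
    ContDiffAt ℂ ω (fun z => e' (e.symm z)) (e x) := by
  rw [← contMDiffAt_iff_contDiffAt]
  have h1 := chart_symm_contMDiffAt hx.1 (e.map_source hx.2)
  refine ContMDiffAt.comp (e x) ?_ h1
  rw [e.left_inv hx.2]
  exact chart_contMDiffAt hx'

variable (n X) in
/-- the underlying real manifold -/
lemma isManifold_real : IsManifold 𝓘(ℝ, Cm n) ∞ X := by
  apply isManifold_of_contDiffOn
  intro e e' he he' z hz
  simp only [modelWithCornersSelf_coe, modelWithCornersSelf_coe_symm, Function.comp_id,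
    Function.id_comp, range_id, inter_univ, preimage_id] at hz ⊢
  have hz1 : z ∈ e.target := by
    rw [OpenPartialHomeomorph.trans_source] at hz; exact hz.1
  have hz2 : e.symm z ∈ e'.source := by
    rw [OpenPartialHomeomorph.trans_source] at hz; exact hz.2
  have h := transition_contDiffAt (e := e) (e' := e') (x := e.symm z)
    ⟨he, e.map_target hz1⟩ ⟨he', hz2⟩
  rw [e.right_inv hz1] at h
  exact ((h.restrict_scalars ℝ).of_le (by exact le_top)).contDiffWithinAt

lemma smoothFn_of_contMDiff {u : X → ℝ} (hu : ContMDiff 𝓘(ℝ, Cm n) 𝓘(ℝ, ℝ) ∞ u) :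
    SmoothFn (n := n) u := by
  intro e x hx
  have := isManifold_real n X
  rw [← contMDiffAt_iff_contDiffAt]
  have h1 : ContMDiffAt 𝓘(ℝ, Cm n) 𝓘(ℝ, Cm n) ∞ e.symm (e x) :=
    (contMDiffOn_symm_of_mem_maximalAtlas (IsManifold.subset_maximalAtlas hx.1)).contMDiffAt
      (e.open_target.mem_nhds (e.map_source hx.2))
  exact ContMDiffAt.comp (e x) (hu.contMDiffAt) h1

/-- A finite smooth partition of unity of `X` subordinate to charts of the atlas. -/
structure Part (n : ℕ) (X : Type*) [TopologicalSpace X] [ChartedSpace (Cm n) X] where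
  N : ℕ
  e : Fin N → Chart n X
  ρ : Fin N → X → ℝ
  mem : ∀ i, e i ∈ atlas (Cm n) X
  smooth : ∀ i, SmoothFn (n := n) (ρ i)
  cont : ∀ i, Continuous (ρ i)
  nonneg : ∀ i x, 0 ≤ ρ i x
  supp : ∀ i, tsupport (ρ i) ⊆ (e i).source
  sum : ∀ x, ∑ i, ρ i x = 1

variable (n X) in
theorem exists_part [T2Space X] [CompactSpace X] : Nonempty (Part n X) := by
  have := isManifold_real n X
  obtain ⟨t, ht⟩ := isCompact_univ.elim_finite_subcover
    (fun x : X => (chartAt (Cm n) x).source) (fun x => (chartAt (Cm n) x).open_source)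
    (fun x _ => mem_iUnion.2 ⟨x, mem_chart_source _ x⟩)
  let N := t.card
  let c : Fin N → X := fun i => (t.equivFin.symm i : X)
  have hc : (univ : Set X) ⊆ ⋃ i, (chartAt (Cm n) (c i)).source := by
    intro x hx
    obtain ⟨y, hy⟩ := mem_iUnion.1 (ht hx)
    obtain ⟨hyt, hxy⟩ := mem_iUnion.1 hy
    exact mem_iUnion.2 ⟨t.equivFin ⟨y, hyt⟩, by simpa [c] using hxy⟩
  obtain ⟨f, hf⟩ := SmoothPartitionOfUnity.exists_isSubordinate 𝓘(ℝ, Cm n)
    isClosed_univ (fun i => (chartAt (Cm n) (c i)).source)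
    (fun i => (chartAt (Cm n) (c i)).open_source) hc
  refine ⟨⟨N, fun i => chartAt (Cm n) (c i), fun i => f i, fun i => chart_mem_atlas _ _,
    fun i => smoothFn_of_contMDiff (f i).contMDiff, fun i => (f i).contMDiff.continuous,
    fun i x => f.nonneg i x, fun i => hf i, fun x => ?_⟩⟩
  have := f.sum_eq_one (mem_univ x)
  rwa [finsum_eq_sum_of_fintype] at this

end

end Vale.Agent.P272.K.INT
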