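import Mathlib.MeasureTheory.Function.Jacobian
import Mathlib.RingTheory.Norm.Transitivity
import Mathlib.RingTheory.Complex
import Vale.Agent.P272.K.INT.Part

/-! Integration of densities on a compact complex manifold. -/

open scoped Manifold ContDiff ComplexOrder ComplexConjugate Topology
open MeasureTheory Set Filter

noncomputable section

namespace Vale.Agent.P272.K.INT

variable {n : ℕ} {X : Type*} [TopologicalSpace X] [ChartedSpace (Cm n) X]

/-- A (continuous) density: the coefficient of a form of top degree in the charts. -/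
structure IsDensity (D : Chart n X → Cm n → ℝ) : Prop where
  cont : ∀ e x, At e x → ContinuousAt (D e) (e x)
  change : ∀ e e' x, At e x → At e' x → D e (e x) = D e' (e' x) * ‖(jacM e e' x).det‖ ^ 2

section
variable [IsManifold 𝓘(ℂ, Cm n) ω X]

lemma dz_of_holo {T : Cm n → ℂ} {z : Cm n} (hT : DifferentiableAt ℂ T z) (i : Fin n) :
    dz i T z = fderiv ℂ T z (Pi.single i 1) := by
  have h1 : fderiv ℝ T z = (fderiv ℂ T z).restrictScalars ℝ :=
    (hT.hasFDerivAt.restrictScalars ℝ).fderiv
  have h2 : (Pi.single i Complex.I : Cm n) = Complex.I • (Pi.single i 1 : Cm n) := by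
    rw [← Pi.single_smul]; simp
  unfold dz
  rw [h1, h2]
  simp only [ContinuousLinearMap.coe_restrictScalars', map_smul, smul_eq_mul]
  linear_combination (-(fderiv ℂ T z (Pi.single i 1)) / 2) * Complex.I_mul_I

lemma dzb_of_holo {T : Cm n → ℂ} {z : Cm n} (hT : DifferentiableAt ℂ T z) (i : Fin n) :
    dzb i T z = 0 := by
  have h1 : fderiv ℝ T z = (fderiv ℂ T z).restrictScalars ℝ :=
    (hT.hasFDerivAt.restrictScalars ℝ).fderiv
  have h2 : (Pi.single i Complex.I : Cm n) = Complex.I • (Pi.single i 1 : Cm n) := by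
    rw [← Pi.single_smul]; simp
  unfold dzb
  rw [h1, h2]
  simp only [ContinuousLinearMap.coe_restrictScalars', map_smul, smul_eq_mul]
  linear_combination ((fderiv ℂ T z (Pi.single i 1)) / 2) * Complex.I_mul_I

lemma det_fderiv_real {T : Cm n → Cm n} {z : Cm n} (hT : DifferentiableAt ℂ T z) :
    (fderiv ℝ T z).det = ‖(Matrix.of fun p i => dz i (fun w => T w p) z :
      Matrix (Fin n) (Fin n) ℂ).det‖ ^ 2 := by
  have h1 : fderiv ℝ T z = (fderiv ℂ T z).restrictScalars ℝ :=
    (hT.hasFDerivAt.restrictScalars ℝ).fderiv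
  have h2 : (fderiv ℝ T z).det = LinearMap.det ((fderiv ℂ T z : Cm n →ₗ[ℂ] Cm n).restrictScalars ℝ) := by
    rw [h1]; rfl
  have h3 : LinearMap.det (fderiv ℂ T z : Cm n →ₗ[ℂ] Cm n) =
      (Matrix.of fun p i => dz i (fun w => T w p) z : Matrix (Fin n) (Fin n) ℂ).det := by
    rw [← LinearMap.det_toMatrix']
    congr 1
    ext p i
    have h4 : DifferentiableAt ℂ (fun w => T w p) z := differentiableAt_pi.1 hT p
    rw [LinearMap.toMatrix'_apply, Matrix.of_apply, dz_of_holo h4]
    have h5 : fderiv ℂ (fun w => T w p) z = (ContinuousLinearMap.proj p).comp (fderiv ℂ T z) :=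
      (hasFDerivAt_pi'.1 hT.hasFDerivAt p).fderiv
    rw [h5]
    simp only [ContinuousLinearMap.coe_coe, ContinuousLinearMap.comp_apply,
      ContinuousLinearMap.proj_apply]
  rw [h2, LinearMap.det_restrictScalars, h3, Algebra.norm_complex_apply,
    Complex.normSq_eq_norm_sq]

lemma det_trans {e e' : Chart n X} {x : X} (hx : At e x) (hx' : At e' x) :
    (fderiv ℝ (fun z => e' (e.symm z)) (e x)).det = ‖(jacM e e' x).det‖ ^ 2 :=
  det_fderiv_real ((transition_contDiffAt hx hx').differentiableAt (by simp))

/-- change of variables -/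
theorem integral_change {D : Chart n X → Cm n → ℝ} (hD : IsDensity D) {e e' : Chart n X}
    (he : e ∈ atlas (Cm n) X) (he' : e' ∈ atlas (Cm n) X) {f : X → ℝ}
    (h1 : ∀ x ∈ e'.source, x ∉ e.source → f x * D e' (e' x) = 0)
    (h2 : ∀ x ∈ e.source, x ∉ e'.source → f x * D e (e x) = 0) :
    ∫ z in e.target, f (e.symm z) * D e z = ∫ z in e'.target, f (e'.symm z) * D e' z := by
  set S := e.symm ≫ₕ e' with hS
  have hsrc : S.source = e.target ∩ e.symm ⁻¹' e'.source := by
    rw [hS, OpenPartialHomeomorph.trans_source]; rfl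
  have htgt : S.target = e'.target ∩ e'.symm ⁻¹' e.source := by
    rw [hS, OpenPartialHomeomorph.trans_target]; rfl
  have e1 : ∫ z in e.target, f (e.symm z) * D e z = ∫ z in S.source, f (e.symm z) * D e z := by
    apply setIntegral_eq_of_subset_of_forall_sdiff_eq_zero e.open_target.measurableSet
    · rw [hsrc]; exact inter_subset_left
    · intro z hz
      have : e.symm z ∉ e'.source := fun h => hz.2 (by rw [hsrc]; exact ⟨hz.1, h⟩)
      have h := h2 _ (e.map_target hz.1) this
      rwa [e.right_inv hz.1] at h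
  have e2 : ∫ z in e'.target, f (e'.symm z) * D e' z
      = ∫ z in S.target, f (e'.symm z) * D e' z := by
    apply setIntegral_eq_of_subset_of_forall_sdiff_eq_zero e'.open_target.measurableSet
    · rw [htgt]; exact inter_subset_left
    · intro z hz
      have : e'.symm z ∉ e.source := fun h => hz.2 (by rw [htgt]; exact ⟨hz.1, h⟩)
      have h := h1 _ (e'.map_target hz.1) this
      rwa [e'.right_inv hz.1] at h
  have e3 : (S : Cm n → Cm n) '' S.source = S.target := S.image_source_eq_target
  have hd : ∀ z ∈ S.source, HasFDerivWithinAt S (fderiv ℝ S z) S.source z := by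
    intro z hz
    rw [hsrc] at hz
    have hx : At e (e.symm z) := ⟨he, e.map_target hz.1⟩
    have hx' : At e' (e.symm z) := ⟨he', hz.2⟩
    have h := transition_contDiffAt hx hx'
    rw [e.right_inv hz.1] at h
    have h' : DifferentiableAt ℝ (fun z => e' (e.symm z)) z :=
      (h.differentiableAt (by simp)).restrictScalars ℝ
    exact h'.hasFDerivAt.hasFDerivWithinAt
  rw [e1, e2, ← e3, integral_image_eq_integral_abs_det_fderiv_smul volume
    S.open_source.measurableSet hd S.injOn]
  apply setIntegral_congr_fun S.open_source.measurableSet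
  intro z hz
  rw [hsrc] at hz
  have hx : At e (e.symm z) := ⟨he, e.map_target hz.1⟩
  have hx' : At e' (e.symm z) := ⟨he', hz.2⟩
  have hdet : (fderiv ℝ S z).det = ‖(jacM e e' (e.symm z)).det‖ ^ 2 := by
    have := det_trans hx hx'
    rw [e.right_inv hz.1] at this
    exact this
  have hch := hD.change e e' (e.symm z) hx hx'
  rw [e.right_inv hz.1] at hch
  have hSz : S z = e' (e.symm z) := rfl
  simp only [smul_eq_mul]
  rw [hdet, hSz, e'.left_inv hz.2, hch, abs_of_nonneg (by positivity)]
  ring

omit [IsManifold 𝓘(ℂ, Cm n) ω X] in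
lemma IsDensity.continuousOn {D : Chart n X → Cm n → ℝ} (hD : IsDensity D) {e : Chart n X}
    (he : e ∈ atlas (Cm n) X) : ContinuousOn (D e) e.target := by
  intro z hz
  have := hD.cont e (e.symm z) ⟨he, e.map_target hz⟩
  rw [e.right_inv hz] at this
  exact this.continuousWithinAt

omit [IsManifold 𝓘(ℂ, Cm n) ω X] [ChartedSpace (Cm n) X] in
lemma integrableOn_chart [CompactSpace X] {D : Cm n → ℝ} {e : Chart n X}
    (hD : ContinuousOn D e.target) {K : Set X} (hK : IsClosed K)
    (hKe : K ⊆ e.source) (h0 : ∀ z ∈ e.target, e.symm z ∉ K → D z = 0) :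
    IntegrableOn D e.target := by
  have hc : IsCompact (e '' K) :=
    hK.isCompact.image_of_continuousOn (e.continuousOn.mono hKe)
  have hsub : e '' K ⊆ e.target := by
    rintro _ ⟨x, hx, rfl⟩; exact e.map_source (hKe hx)
  have h1 : IntegrableOn D (e '' K) := (hD.mono hsub).integrableOn_compact hc
  refine h1.of_forall_sdiff_eq_zero e.open_target.measurableSet fun z hz => ?_
  apply h0 z hz.1
  intro h
  exact hz.2 ⟨_, h, e.right_inv hz.1⟩

omit [IsManifold 𝓘(ℂ, Cm n) ω X] in
lemma integrableOn_dens [CompactSpace X] {D : Chart n X → Cm n → ℝ} (hD : IsDensity D)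
    {e : Chart n X} (he : e ∈ atlas (Cm n) X) {f : X → ℝ} (hf : Continuous f)
    (hs : tsupport f ⊆ e.source) :
    IntegrableOn (fun z => f (e.symm z) * D e z) e.target := by
  refine integrableOn_chart ?_ (isClosed_tsupport f) hs ?_
  · exact (hf.comp_continuousOn e.continuousOn_symm).mul (hD.continuousOn he)
  · intro z _ h
    rw [image_eq_zero_of_notMem_tsupport h, zero_mul]

omit [ChartedSpace (Cm n) X] [IsManifold 𝓘(ℂ, Cm n) ω X] in
lemma tsupport_mul_subset_left' {f g : X → ℝ} : tsupport (fun x => f x * g x) ⊆ tsupport f :=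
  closure_mono (by intro x hx; simp only [Function.mem_support] at hx ⊢; exact left_ne_zero_of_mul hx)

omit [ChartedSpace (Cm n) X] [IsManifold 𝓘(ℂ, Cm n) ω X] in
lemma tsupport_mul_subset_right' {f g : X → ℝ} : tsupport (fun x => f x * g x) ⊆ tsupport g :=
  closure_mono (by intro x hx; simp only [Function.mem_support] at hx ⊢; exact right_ne_zero_of_mul hx)

/-- two partitions of unity compute the same integral -/
theorem sum_eq_sum [CompactSpace X] {D : Chart n X → Cm n → ℝ} (hD : IsDensity D)
    {N N' : ℕ} {e : Fin N → Chart n X} {e' : Fin N' → Chart n X}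
    {ρ : Fin N → X → ℝ} {ρ' : Fin N' → X → ℝ}
    (he : ∀ i, e i ∈ atlas (Cm n) X) (he' : ∀ i, e' i ∈ atlas (Cm n) X)
    (hρ : ∀ i, Continuous (ρ i)) (hρ' : ∀ i, Continuous (ρ' i))
    (hs : ∀ i, tsupport (ρ i) ⊆ (e i).source) (hs' : ∀ i, tsupport (ρ' i) ⊆ (e' i).source)
    (h1 : ∀ x, ∑ i, ρ i x = 1) (h1' : ∀ x, ∑ i, ρ' i x = 1) :
    ∑ i, ∫ z in (e i).target, ρ i ((e i).symm z) * D (e i) z =
      ∑ i, ∫ z in (e' i).target, ρ' i ((e' i).symm z) * D (e' i) z := by
  have key : ∀ i, ∫ z in (e i).target, ρ i ((e i).symm z) * D (e i) z =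
      ∑ j, ∫ z in (e i).target, (ρ i ((e i).symm z) * ρ' j ((e i).symm z)) * D (e i) z := by
    intro i
    rw [← integral_finsetSum]
    · congr 1
      ext z
      rw [← Finset.sum_mul, ← Finset.mul_sum, h1', mul_one]
    · intro j _
      exact integrableOn_dens hD (he i) ((hρ i).mul (hρ' j))
        (tsupport_mul_subset_left'.trans (hs i))
  have key' : ∀ j, ∫ z in (e' j).target, ρ' j ((e' j).symm z) * D (e' j) z =
      ∑ i, ∫ z in (e' j).target, (ρ i ((e' j).symm z) * ρ' j ((e' j).symm z)) * D (e' j) z := by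
    intro j
    rw [← integral_finsetSum]
    · congr 1
      ext z
      rw [← Finset.sum_mul, ← Finset.sum_mul, h1, one_mul]
    · intro i _
      exact integrableOn_dens hD (he' j) ((hρ i).mul (hρ' j))
        (tsupport_mul_subset_right'.trans (hs' j))
  rw [Finset.sum_congr rfl fun i _ => key i, Finset.sum_congr rfl fun j _ => key' j,
    Finset.sum_comm]
  refine Finset.sum_congr rfl fun j _ => Finset.sum_congr rfl fun i _ => ?_
  refine integral_change (f := fun x => ρ i x * ρ' j x) hD (he i) (he' j) ?_ ?_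
  · intro x _ hx
    rw [image_eq_zero_of_notMem_tsupport (fun h => hx (hs i h)), zero_mul, zero_mul]
  · intro x _ hx
    rw [image_eq_zero_of_notMem_tsupport (fun h => hx (hs' j h)), mul_zero, zero_mul]

variable [T2Space X] [CompactSpace X]

variable (n X) in
/-- a chosen partition of unity -/
def part : Part n X := Classical.choice (exists_part n X)

/-- the integral over `X` of a density, computed with the chosen partition of unity -/
def intX (D : Chart n X → Cm n → ℝ) : ℝ :=
  ∑ i, ∫ z in ((part n X).e i).target,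
    (part n X).ρ i (((part n X).e i).symm z) * D ((part n X).e i) z

theorem IsDensity.isIntegral {D : Chart n X → Cm n → ℝ} (hD : IsDensity D) :
    IsIntegral D (intX D) := by
  intro N e ρ he hρ hs h1
  exact sum_eq_sum hD he (part n X).mem hρ (part n X).cont hs (part n X).supp h1 (part n X).sum

theorem intX_eq_of_isIntegral {D : Chart n X → Cm n → ℝ} {I : ℝ} (h : IsIntegral D I) :
    intX D = I :=
  h _ _ _ (part n X).mem (part n X).cont (part n X).supp (part n X).sum

omit [T2Space X] [IsManifold 𝓘(ℂ, Cm n) ω X] in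
lemma integrableOn_part (P : Part n X) {D : Chart n X → Cm n → ℝ} (hD : IsDensity D)
    (i : Fin P.N) :
    IntegrableOn (fun z => P.ρ i ((P.e i).symm z) * D (P.e i) z) (P.e i).target :=
  integrableOn_dens hD (P.mem i) (P.cont i) (P.supp i)

omit [IsManifold 𝓘(ℂ, Cm n) ω X] [T2Space X] [CompactSpace X] in
lemma IsDensity.add {D D' : Chart n X → Cm n → ℝ} (hD : IsDensity D) (hD' : IsDensity D') :
    IsDensity (fun e z => D e z + D' e z) where
  cont e x h := (hD.cont e x h).add (hD'.cont e x h)
  change e e' x h h' := by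
    show D e (e x) + D' e (e x) = (D e' (e' x) + D' e' (e' x)) * _
    rw [hD.change e e' x h h', hD'.change e e' x h h']; ring

omit [IsManifold 𝓘(ℂ, Cm n) ω X] [T2Space X] [CompactSpace X] in
lemma IsDensity.const_mul {D : Chart n X → Cm n → ℝ} (hD : IsDensity D) (c : ℝ) :
    IsDensity (fun e z => c * D e z) where
  cont e x h := continuousAt_const.mul (hD.cont e x h)
  change e e' x h h' := by
    show c * D e (e x) = (c * D e' (e' x)) * _
    rw [hD.change e e' x h h']; ring

omit [IsManifold 𝓘(ℂ, Cm n) ω X] [T2Space X] [CompactSpace X] in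
lemma IsDensity.sub {D D' : Chart n X → Cm n → ℝ} (hD : IsDensity D) (hD' : IsDensity D') :
    IsDensity (fun e z => D e z - D' e z) where
  cont e x h := (hD.cont e x h).sub (hD'.cont e x h)
  change e e' x h h' := by
    show D e (e x) - D' e (e x) = (D e' (e' x) - D' e' (e' x)) * _
    rw [hD.change e e' x h h', hD'.change e e' x h h']; ring

omit [IsManifold 𝓘(ℂ, Cm n) ω X] [T2Space X] [CompactSpace X] in
lemma IsDensity.zero : IsDensity (fun (_ : Chart n X) (_ : Cm n) => (0 : ℝ)) where
  cont e x h := continuousAt_const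
  change e e' x h h' := by simp

omit [IsManifold 𝓘(ℂ, Cm n) ω X] [T2Space X] [CompactSpace X] in
lemma IsDensity.sum {ι : Type*} (s : Finset ι) {D : ι → Chart n X → Cm n → ℝ}
    (hD : ∀ i ∈ s, IsDensity (D i)) : IsDensity (fun e z => ∑ i ∈ s, D i e z) := by
  classical
  induction s using Finset.induction_on with
  | empty => simpa using IsDensity.zero
  | insert a s ha ih =>
    simp only [Finset.sum_insert ha]
    exact (hD a (Finset.mem_insert_self a s)).add
      (ih fun i hi => hD i (Finset.mem_insert_of_mem hi))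

omit [IsManifold 𝓘(ℂ, Cm n) ω X] [T2Space X] [CompactSpace X] in
/-- multiplication by a continuous function on `X` -/
lemma IsDensity.smul {D : Chart n X → Cm n → ℝ} (hD : IsDensity D) {f : X → ℝ}
    (hf : Continuous f) : IsDensity (fun e z => f (e.symm z) * D e z) where
  cont e x h := by
    have h1 : ContinuousAt (fun z => f (e.symm z)) (e x) :=
      hf.continuousAt.comp (e.continuousAt_symm (e.map_source h.2))
    exact h1.mul (hD.cont e x h)
  change e e' x h h' := by
    show f (e.symm (e x)) * D e (e x) = (f (e'.symm (e' x)) * D e' (e' x)) * _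
    rw [hD.change e e' x h h', e.left_inv h.2, e'.left_inv h'.2]; ring

theorem intX_add {D D' : Chart n X → Cm n → ℝ} (hD : IsDensity D) (hD' : IsDensity D') :
    intX (fun e z => D e z + D' e z) = intX D + intX D' := by
  unfold intX
  rw [← Finset.sum_add_distrib]
  refine Finset.sum_congr rfl fun i _ => ?_
  rw [← integral_add (integrableOn_part _ hD i) (integrableOn_part _ hD' i)]
  congr 1; ext z; ring

theorem intX_sub {D D' : Chart n X → Cm n → ℝ} (hD : IsDensity D) (hD' : IsDensity D') :
    intX (fun e z => D e z - D' e z) = intX D - intX D' := by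
  unfold intX
  rw [← Finset.sum_sub_distrib]
  refine Finset.sum_congr rfl fun i _ => ?_
  rw [← integral_sub (integrableOn_part _ hD i) (integrableOn_part _ hD' i)]
  congr 1; ext z; ring

theorem intX_const_mul (D : Chart n X → Cm n → ℝ) (c : ℝ) :
    intX (fun e z => c * D e z) = c * intX D := by
  unfold intX
  rw [Finset.mul_sum]
  refine Finset.sum_congr rfl fun i _ => ?_
  rw [← integral_const_mul]
  congr 1; ext z; ring

theorem intX_zero : intX (fun (_ : Chart n X) (_ : Cm n) => (0 : ℝ)) = 0 := by
  simp [intX]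

theorem intX_sum {ι : Type*} (s : Finset ι) {D : ι → Chart n X → Cm n → ℝ}
    (hD : ∀ i ∈ s, IsDensity (D i)) :
    intX (fun e z => ∑ i ∈ s, D i e z) = ∑ i ∈ s, intX (D i) := by
  classical
  induction s using Finset.induction_on with
  | empty => simpa using intX_zero
  | insert a s ha ih =>
    simp only [Finset.sum_insert ha]
    rw [intX_add (hD a (Finset.mem_insert_self a s))
      (IsDensity.sum s fun i hi => hD i (Finset.mem_insert_of_mem hi)),
      ih fun i hi => hD i (Finset.mem_insert_of_mem hi)]

theorem intX_congr {D D' : Chart n X → Cm n → ℝ}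
    (h : ∀ e x, At e x → D e (e x) = D' e (e x)) : intX D = intX D' := by
  unfold intX
  refine Finset.sum_congr rfl fun i _ => ?_
  refine setIntegral_congr_fun ((part n X).e i).open_target.measurableSet fun z hz => ?_
  have := h ((part n X).e i) (((part n X).e i).symm z)
    ⟨(part n X).mem i, ((part n X).e i).map_target hz⟩
  rw [((part n X).e i).right_inv hz] at this
  simp only [this]

theorem intX_nonneg {D : Chart n X → Cm n → ℝ} (h : ∀ e x, At e x → 0 ≤ D e (e x)) :
    0 ≤ intX D := by
  unfold intX
  refine Finset.sum_nonneg fun i _ => ?_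
  refine setIntegral_nonneg ((part n X).e i).open_target.measurableSet fun z hz => ?_
  have := h ((part n X).e i) (((part n X).e i).symm z)
    ⟨(part n X).mem i, ((part n X).e i).map_target hz⟩
  rw [((part n X).e i).right_inv hz] at this
  exact mul_nonneg ((part n X).nonneg i _) this

theorem intX_mono {D D' : Chart n X → Cm n → ℝ} (hD : IsDensity D) (hD' : IsDensity D')
    (h : ∀ e x, At e x → D e (e x) ≤ D' e (e x)) : intX D ≤ intX D' := by
  have := intX_nonneg (D := fun e z => D' e z - D e z) fun e x hx => sub_nonneg.2 (h e x hx)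
  rw [intX_sub hD' hD] at this
  linarith

theorem intX_pos [Nonempty X] {D : Chart n X → Cm n → ℝ} (hD : IsDensity D)
    (h : ∀ e x, At e x → 0 < D e (e x)) : 0 < intX D := by
  obtain ⟨x⟩ := ‹Nonempty X›
  set P := part n X with hP
  have h1 : ∃ i, 0 < P.ρ i x := by
    by_contra hcon
    push Not at hcon
    have := P.sum x
    have h2 : ∑ i, P.ρ i x ≤ 0 := Finset.sum_nonpos fun i _ => hcon i
    linarith
  obtain ⟨i, hi⟩ := h1
  have hDi : ∀ z ∈ (P.e i).target, 0 < D (P.e i) z := fun z hz => by
    have := h (P.e i) ((P.e i).symm z) ⟨P.mem i, (P.e i).map_target hz⟩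
    rwa [(P.e i).right_inv hz] at this
  unfold intX
  rw [← hP]
  refine Finset.sum_pos' (fun j _ => ?_) ⟨i, Finset.mem_univ i, ?_⟩
  · refine setIntegral_nonneg (P.e j).open_target.measurableSet fun z hz => ?_
    have := h (P.e j) ((P.e j).symm z) ⟨P.mem j, (P.e j).map_target hz⟩
    rw [(P.e j).right_inv hz] at this
    exact mul_nonneg (P.nonneg j _) this.le
  · have hx : x ∈ (P.e i).source := P.supp i (subset_tsupport _ (by
      simp only [Function.mem_support]; exact hi.ne'))
    rw [setIntegral_pos_iff_support_of_nonneg_ae]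
    · have hopen : IsOpen ((P.e i).target ∩ (P.e i).symm ⁻¹' {y | 0 < P.ρ i y}) :=
        (P.e i).isOpen_inter_preimage_symm (isOpen_lt continuous_const (P.cont i))
      refine (hopen.measure_pos volume ⟨P.e i x, ?_⟩).trans_le (measure_mono ?_)
      · refine ⟨(P.e i).map_source hx, ?_⟩
        change 0 < P.ρ i ((P.e i).symm (P.e i x))
        rw [(P.e i).left_inv hx]; exact hi
      · rintro z ⟨hz1, hz2⟩
        refine ⟨?_, hz1⟩
        simp only [Function.mem_support]
        exact (mul_pos hz2 (hDi z hz1)).ne'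
    · filter_upwards [self_mem_ae_restrict (P.e i).open_target.measurableSet] with z hz
      exact mul_nonneg (P.nonneg i _) (hDi z hz).le
    · exact integrableOn_part P hD i

/-- the integral of a density vanishing off a closed subset of a chart domain -/
theorem intX_of_support {D : Chart n X → Cm n → ℝ} (hD : IsDensity D) {e : Chart n X}
    (he : e ∈ atlas (Cm n) X) {K : Set X} (hK : IsClosed K) (hKe : K ⊆ e.source)
    (h0 : ∀ e' x, At e' x → x ∉ K → D e' (e' x) = 0) :
    intX D = ∫ z in e.target, D e z := by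
  set P := part n X with hP
  have h0' : ∀ e' ∈ atlas (Cm n) X, ∀ z ∈ e'.target, e'.symm z ∉ K → D e' z = 0 := by
    intro e' he' z hz hzK
    have := h0 e' (e'.symm z) ⟨he', e'.map_target hz⟩ hzK
    rwa [e'.right_inv hz] at this
  have h1 : ∫ z in e.target, D e z = ∑ i, ∫ z in e.target, P.ρ i (e.symm z) * D e z := by
    rw [← integral_finsetSum]
    · congr 1; ext z; rw [← Finset.sum_mul, P.sum, one_mul]
    · intro i _
      refine integrableOn_chart ?_ hK hKe ?_
      · exact ((P.cont i).comp_continuousOn e.continuousOn_symm).mul (hD.continuousOn he)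
      · intro z hz h; rw [h0' e he z hz h, mul_zero]
  rw [h1]
  unfold intX
  rw [← hP]
  refine Finset.sum_congr rfl fun i _ => ?_
  refine integral_change hD (P.mem i) he ?_ ?_
  · intro x _ hx
    rw [image_eq_zero_of_notMem_tsupport (fun h => hx (P.supp i h)), zero_mul]
  · intro x hx hx'
    rw [h0 (P.e i) x ⟨P.mem i, hx⟩ (fun h => hx' (hKe h)), mul_zero]

end

end Vale.Agent.P272.K.INT
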