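import Vale.Agent.P272.K.INT.Poly

/-! `∫ det (b + i∂∂̄u) = ∫ det b` in a chart, for compactly supported `u`. -/

open scoped ContDiff ComplexOrder ComplexConjugate Topology
open MeasureTheory Set Filter

noncomputable section

namespace Vale.Agent.P272.K.INT

variable {n : ℕ}

lemma cHess_apply (u : Cm n → ℝ) (z : Cm n) (k l : Fin n) :
    cHess u z k l = dz k (dzb l fun y => (u y : ℂ)) z := rfl

lemma ofReal_contDiffAt {u : Cm n → ℝ} {z : Cm n} {m : WithTop ℕ∞} (h : ContDiffAt ℝ m u z) :
    ContDiffAt ℝ m (fun y => (u y : ℂ)) z :=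
  Complex.ofRealCLM.contDiff.contDiffAt.comp z h

lemma smooth_cHess {u : Cm n → ℝ} {z : Cm n} (h : ContDiffAt ℝ ∞ u z) (k l : Fin n) :
    ContDiffAt ℝ ∞ (fun y => cHess u y k l) z :=
  smooth_dz (smooth_dzb (ofReal_contDiffAt h))

lemma cHess_closed {u : Cm n → ℝ} {z : Cm n} (h : ContDiffAt ℝ ∞ u z) (i k l : Fin n) :
    dz i (fun y => cHess u y k l) z = dz k (fun y => cHess u y i l) z :=
  dz_dz_comm ((smooth_dzb (ofReal_contDiffAt h)).of_le (by norm_cast))

lemma cHess_zero_of_notMem {u : Cm n → ℝ} {z : Cm n} (h : z ∉ tsupport u) : cHess u z = 0 := by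
  have h0 : u =ᶠ[𝓝 z] fun _ => (0 : ℝ) := notMem_tsupport_iff_eventuallyEq.1 h
  have h1 : (fun y => (u y : ℂ)) =ᶠ[𝓝 z] fun _ => (0 : ℂ) := by
    filter_upwards [h0] with y hy; simp [hy]
  ext k l
  rw [cHess_apply, dz_congr (dzb_congr' (i := l) h1)]
  have : (dzb l fun _ : Cm n => (0 : ℂ)) = fun _ => 0 := by funext y; simp
  rw [this]; simp

lemma dzb_zero_of_notMem {u : Cm n → ℝ} {z : Cm n} (h : z ∉ tsupport u) (l : Fin n) :
    dzb l (fun y => (u y : ℂ)) z = 0 := by
  have h0 : u =ᶠ[𝓝 z] fun _ => (0 : ℝ) := notMem_tsupport_iff_eventuallyEq.1 h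
  have h1 : (fun y => (u y : ℂ)) =ᶠ[𝓝 z] fun _ => (0 : ℂ) := by
    filter_upwards [h0] with y hy; simp [hy]
  rw [dzb_congr h1]; simp

variable {U : Set (Cm n)} {b : Cm n → Matrix (Fin n) (Fin n) ℂ} {u : Cm n → ℝ}

/-- the divergence form of the variation of the determinant -/
lemma integral_variation (hU : IsOpen U) (hb : ∀ z ∈ U, ∀ i j, ContDiffAt ℝ ∞ (fun y => b y i j) z)
    (hcl : ∀ z ∈ U, ∀ i k l, dz i (fun y => b y k l) z = dz k (fun y => b y i l) z)
    (hu : ContDiff ℝ ∞ u) (hc : HasCompactSupport u) (hs : tsupport u ⊆ U) (s : ℝ) :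
    ∫ z in U, (∑ r, ((b z + (s : ℂ) • cHess u z).updateRow r (cHess u z r)).det).re = 0 := by
  set F : Fin n → Cm n → ℂ := fun r z =>
    ((b z + (s : ℂ) • cHess u z).updateRow r (fun l => dzb l (fun y => (u y : ℂ)) z)).det with hF
  have hM : ∀ z ∈ U, ∀ i j, ContDiffAt ℝ ∞ (fun y => (b y + (s : ℂ) • cHess u y) i j) z :=
    fun z hz i j => (hb z hz i j).add (contDiffAt_const.mul (smooth_cHess hu.contDiffAt i j))
  -- each `F r` vanishes off the support of `u`
  have hF0 : ∀ r z, z ∉ tsupport u → F r z = 0 := by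
    intro r z hz
    refine Matrix.det_eq_zero_of_row_eq_zero r fun l => ?_
    rw [Matrix.updateRow_self]
    exact dzb_zero_of_notMem hz l
  have hFs : ∀ r, HasCompactSupport (F r) := fun r =>
    HasCompactSupport.intro hc (fun z hz => hF0 r z hz)
  have hFt : ∀ r z, z ∉ tsupport u → F r =ᶠ[𝓝 z] fun _ => 0 := by
    intro r z hz
    filter_upwards [(isClosed_tsupport u).isOpen_compl.mem_nhds hz] with y hy
    exact hF0 r y hy
  have hFc : ∀ r, ContDiff ℝ 1 (F r) := by
    intro r
    rw [contDiff_iff_contDiffAt]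
    intro z
    by_cases hz : z ∈ tsupport u
    · refine (contDiffAt_det (k := ∞) fun i j => ?_).of_le (by exact_mod_cast le_top)
      by_cases h : i = r
      · subst h
        simp only [Matrix.updateRow_self]
        exact smooth_dzb (ofReal_contDiffAt hu.contDiffAt)
      · simp only [Matrix.updateRow_ne h]
        exact hM z (hs hz) i j
    · exact contDiffAt_const.congr_of_eventuallyEq (hFt r z hz)
  -- pointwise identity
  have key : ∀ z ∈ U, ∑ r, ((b z + (s : ℂ) • cHess u z).updateRow r (cHess u z r)).det =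
      ∑ r, dz r (F r) z := by
    intro z hz
    have := piola (M := fun y => b y + (s : ℂ) • cHess u y)
      (a := fun y l => dzb l (fun y => (u y : ℂ)) y) (z := z)
      (fun i j => (hM z hz i j).differentiableAt (by simp))
      (fun l => (smooth_dzb (ofReal_contDiffAt hu.contDiffAt)).differentiableAt (by simp))
      (fun i k l => by
        have e1 := (hb z hz k l).differentiableAt (n := ∞) (by simp)
        have e2 := (hb z hz i l).differentiableAt (n := ∞) (by simp)
        have f1 := (smooth_cHess (u := u) (z := z) hu.contDiffAt k l).differentiableAt (by simp)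
        have f2 := (smooth_cHess (u := u) (z := z) hu.contDiffAt i l).differentiableAt (by simp)
        change dz i (fun y => b y k l + (s : ℂ) * cHess u y k l) z =
          dz k (fun y => b y i l + (s : ℂ) * cHess u y i l) z
        rw [dz_add e1 (f1.const_mul _), dz_add e2 (f2.const_mul _), dz_const_mul _ f1,
          dz_const_mul _ f2, hcl z hz i k l, cHess_closed hu.contDiffAt i k l])
    rw [this]
    rfl
  have hcomp : ∀ z, z ∉ U → ∑ r, dz r (F r) z = 0 := by
    intro z hz
    refine Finset.sum_eq_zero fun r _ => ?_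
    rw [dz_congr (hFt r z (fun h => hz (hs h)))]; simp
  have hint : ∀ r, Integrable (fun z => dz r (F r) z) := by
    intro r
    have h1 : Continuous (dz r (F r)) := by
      rw [dz_fun_eq]
      have := (hFc r).continuous_fderiv (by norm_num)
      exact continuous_const.mul ((this.clm_apply continuous_const).sub
        (continuous_const.mul (this.clm_apply continuous_const)))
    refine h1.integrable_of_hasCompactSupport (HasCompactSupport.intro hc fun z hz => ?_)
    rw [dz_congr (hFt r z hz)]; simp
  have e1 : ∫ z in U, (∑ r, ((b z + (s : ℂ) • cHess u z).updateRow r (cHess u z r)).det).re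
      = ∫ z in U, (∑ r, dz r (F r) z).re :=
    setIntegral_congr_fun hU.measurableSet fun z hz => by simp only [key z hz]
  have e2 : ∫ z in U, (∑ r, dz r (F r) z).re = ∫ z, (∑ r, dz r (F r) z).re := by
    apply setIntegral_eq_integral_of_forall_compl_eq_zero
    intro z hz; rw [hcomp z hz, Complex.zero_re]
  have e3 : ∫ z, (∑ r, dz r (F r) z).re = (∫ z, ∑ r, dz r (F r) z).re :=
    Complex.reCLM.integral_comp_comm (integrable_finsetSum _ fun r _ => hint r)
  rw [e1, e2, e3, integral_finsetSum _ fun r _ => hint r]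
  simp [fun r => integral_dz_eq_zero (hFc r) (hFs r) r]

/-- invariance of the integral of the determinant, in a chart -/
theorem local_stokes (hU : IsOpen U) (hb : ∀ z ∈ U, ∀ i j, ContDiffAt ℝ ∞ (fun y => b y i j) z)
    (hcl : ∀ z ∈ U, ∀ i k l, dz i (fun y => b y k l) z = dz k (fun y => b y i l) z)
    (hu : ContDiff ℝ ∞ u) (hc : HasCompactSupport u) (hs : tsupport u ⊆ U) :
    ∫ z in U, ((b z + cHess u z).det.re - (b z).det.re) = 0 := by
  set D : ℝ → Cm n → ℝ := fun s z => (b z + (s : ℂ) • cHess u z).det.re with hD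
  have hD0 : ∀ z, D 0 z = (b z).det.re := fun z => by simp [hD]
  have hD1 : ∀ z, D 1 z = (b z + cHess u z).det.re := fun z => by simp [hD]
  have hpoly : ∀ z, IsPolyN n fun s => D s z := fun z => isPolyN_det _ _
  have hint : ∀ s, IntegrableOn (fun z => D s z - D 0 z) U := by
    intro s
    have hcont : ContinuousOn (fun z => D s z - D 0 z) U := by
      intro z hz
      refine ContinuousAt.continuousWithinAt (ContinuousAt.sub ?_ ?_)
      · refine Complex.continuous_re.continuousAt.comp
          (contDiffAt_det (k := ∞) fun i j => ?_).continuousAt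
        exact (hb z hz i j).add (contDiffAt_const.mul (smooth_cHess hu.contDiffAt i j))
      · refine Complex.continuous_re.continuousAt.comp
          (contDiffAt_det (k := ∞) fun i j => ?_).continuousAt
        exact (hb z hz i j).add (contDiffAt_const.mul (smooth_cHess hu.contDiffAt i j))
    have h1 : IntegrableOn (fun z => D s z - D 0 z) (tsupport u) :=
      (hcont.mono hs).integrableOn_compact hc
    refine h1.of_forall_sdiff_eq_zero hU.measurableSet fun z hz => ?_
    simp only [hD, cHess_zero_of_notMem hz.2, smul_zero, sub_self]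
  set q : ℝ → ℝ := fun s => ∫ z in U, (D s z - D 0 z) with hq
  have hqs : q = fun s => ∑ j : Fin (n + 1), lag n j s * q j := by
    funext s
    simp only [hq]
    have h1 : ∀ z, D s z - D 0 z = ∑ j : Fin (n + 1), lag n j s * (D j z - D 0 z) := by
      intro z
      simp only [mul_sub, Finset.sum_sub_distrib, ← Finset.sum_mul, sum_lag, one_mul]
      rw [(hpoly z).eq_sum s]
    simp only [h1]
    have hj : ∀ j : Fin (n + 1), Integrable (fun z => lag n j s * (D (j : ℝ) z - D 0 z))
      (volume.restrict U) := fun j => (hint _).const_mul _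
    rw [integral_finsetSum _ fun j _ => hj j]
    exact Finset.sum_congr rfl fun j _ => integral_const_mul _ _
  have hqd : Differentiable ℝ q := by
    rw [hqs]
    exact Differentiable.fun_sum fun j _ => (lag_differentiable n j).mul_const _
  have hq' : ∀ s, deriv q s = 0 := by
    intro s
    have h2 : deriv q s = ∑ j : Fin (n + 1), deriv (lag n j) s * q j := by
      conv_lhs => rw [hqs]
      rw [deriv_fun_sum fun j _ => ((lag_differentiable n j).mul_const _) s]
      exact Finset.sum_congr rfl fun j _ => deriv_mul_const (lag_differentiable n j s) _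
    rw [h2, ← integral_variation hU hb hcl hu hc hs s]
    simp only [hq, ← integral_const_mul]
    have hj : ∀ j : Fin (n + 1), Integrable (fun z => deriv (lag n j) s * (D (j : ℝ) z - D 0 z))
      (volume.restrict U) := fun j => (hint _).const_mul _
    rw [← integral_finsetSum _ fun j _ => hj j]
    refine setIntegral_congr_fun hU.measurableSet fun z _ => ?_
    simp only [mul_sub, Finset.sum_sub_distrib, ← Finset.sum_mul, sum_deriv_lag, zero_mul,
      sub_zero]
    rw [← (hpoly z).deriv s]
    exact (hasDerivAt_det_line _ _ s).deriv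
  have h3 : q 1 = q 0 := is_const_of_deriv_eq_zero hqd hq' 1 0
  have h4 : q 0 = 0 := by simp [hq]
  rw [h4] at h3
  rw [← h3]
  simp only [hq, hD0, hD1]

end Vale.Agent.P272.K.INT
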