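import Vale.Agent.P272.K.Inv.Chart
import Vale.Agent.P272.K.INT.Dens
import Vale.Agent.P272.K.INT.Local

/-! Intersection numbers on a compact complex manifold. -/

open scoped Manifold ContDiff ComplexOrder ComplexConjugate Topology
open MeasureTheory Set Filter

noncomputable section

namespace Vale.Agent.P272.K.INT

variable {n : ℕ} {X : Type*} [TopologicalSpace X] [ChartedSpace (Cm n) X]
  [IsManifold 𝓘(ℂ, Cm n) ω X]

/-- a smooth closed `(1,1)`-form on `X` -/
structure IsClosedForm (b : Chart n X → Cm n → Matrix (Fin n) (Fin n) ℂ) : Prop where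
  smooth : ∀ e x, At e x → ∀ i j, ContDiffAt ℝ ∞ (fun z => b e z i j) (e x)
  form : IsForm b
  closed : ∀ e x, At e x → ∀ i k l,
    dz i (fun z => b e z k l) (e x) = dz k (fun z => b e z i l) (e x)

lemma two_le_inf : (2 : WithTop ℕ∞) ≤ ∞ := by norm_cast

lemma SmoothFn.two {u : X → ℝ} (hu : SmoothFn (n := n) u) (e : Chart n X) (x : X) (h : At e x) :
    ContDiffAt ℝ 2 (fun z => u (e.symm z)) (e x) := (hu e x h).of_le two_le_inf

lemma IsKahler.isClosedForm {w : Chart n X → Cm n → Matrix (Fin n) (Fin n) ℂ} (hw : IsKahler w) :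
    IsClosedForm w where
  smooth := hw.smooth
  form := hw.change
  closed e x h i k l := hw.closed e x h k l i

lemma IsClosedForm.add {b c : Chart n X → Cm n → Matrix (Fin n) (Fin n) ℂ}
    (hb : IsClosedForm b) (hc : IsClosedForm c) : IsClosedForm fun e z => b e z + c e z where
  smooth e x h i j := (hb.smooth e x h i j).add (hc.smooth e x h i j)
  form := hb.form.add hc.form
  closed e x h i k l := by
    have f1 := (hb.smooth e x h k l).differentiableAt (by simp)
    have f2 := (hb.smooth e x h i l).differentiableAt (by simp)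
    have g1 := (hc.smooth e x h k l).differentiableAt (by simp)
    have g2 := (hc.smooth e x h i l).differentiableAt (by simp)
    change dz i (fun z => b e z k l + c e z k l) (e x) = dz k (fun z => b e z i l + c e z i l) (e x)
    rw [dz_add f1 g1, dz_add f2 g2, hb.closed e x h, hc.closed e x h]

lemma IsClosedForm.smul {b : Chart n X → Cm n → Matrix (Fin n) (Fin n) ℂ} (a : ℂ)
    (hb : IsClosedForm b) : IsClosedForm fun e z => a • b e z where
  smooth e x h i j := contDiffAt_const.mul (hb.smooth e x h i j)
  form := hb.form.smul a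
  closed e x h i k l := by
    have f1 := (hb.smooth e x h k l).differentiableAt (by simp)
    have f2 := (hb.smooth e x h i l).differentiableAt (by simp)
    change dz i (fun z => a * b e z k l) (e x) = dz k (fun z => a * b e z i l) (e x)
    rw [dz_const_mul _ f1, dz_const_mul _ f2, hb.closed e x h]

section

lemma isClosedForm_cHess {u : X → ℝ} (hu : SmoothFn (n := n) u) :
    IsClosedForm fun (e : Chart n X) z => cHess (fun y => u (e.symm y)) z where
  smooth e x h i j := smooth_cHess (hu e x h) i j
  form := isForm_cHess fun e x h => SmoothFn.two hu e x h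
  closed e x h i k l := cHess_closed (hu e x h) i k l

lemma isClosedForm_canonical {φ : Chart n X → Cm n → ℝ} (hφ : IsCanonicalMetric φ) :
    IsClosedForm fun e z => cHess (φ e) z where
  smooth e x h i j := smooth_cHess (hφ.smooth e x h) i j
  form := isForm_canonical (fun e x h => (hφ.smooth e x h).of_le two_le_inf) hφ.change
  closed e x h i k l := cHess_closed (hφ.smooth e x h) i k l

end

lemma isDensity_det {b : Chart n X → Cm n → Matrix (Fin n) (Fin n) ℂ} (hb : IsForm b)
    (hs : ∀ e x, At e x → ∀ i j, ContDiffAt ℝ ∞ (fun z => b e z i j) (e x)) :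
    IsDensity fun e z => (b e z).det.re where
  cont e x h := Complex.continuous_re.continuousAt.comp
    (contDiffAt_det (k := ∞) fun i j => hs e x h i j).continuousAt
  change e e' x h h' := by
    show (b e (e x)).det.re = (b e' (e' x)).det.re * _
    rw [det_form_re hb h h', mul_comm]

lemma IsClosedForm.isDensity {b : Chart n X → Cm n → Matrix (Fin n) (Fin n) ℂ}
    (hb : IsClosedForm b) : IsDensity fun e z => (b e z).det.re :=
  isDensity_det hb.form hb.smooth

lemma SmoothFn.continuous {u : X → ℝ} (hu : SmoothFn (n := n) u) : Continuous u := by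
  rw [continuous_iff_continuousAt]
  intro x
  set e := chartAt (Cm n) x with he
  have hx : At e x := ⟨chart_mem_atlas _ x, mem_chart_source _ x⟩
  have h1 : ContinuousAt (fun y => u (e.symm (e y))) x :=
    (hu e x hx).continuousAt.comp (f := e) (e.continuousAt hx.2)
  refine h1.congr ?_
  filter_upwards [e.open_source.mem_nhds hx.2] with y hy
  rw [e.left_inv hy]

section

lemma SmoothFn.mul {u v : X → ℝ} (hu : SmoothFn (n := n) u) (hv : SmoothFn (n := n) v) :
    SmoothFn (n := n) (fun x => u x * v x) := fun e x h => (hu e x h).mul (hv e x h)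

lemma SmoothFn.sum {ι : Type*} (s : Finset ι) {u : ι → X → ℝ}
    (hu : ∀ i ∈ s, SmoothFn (n := n) (u i)) : SmoothFn (n := n) (fun x => ∑ i ∈ s, u i x) :=
  fun e x h => ContDiffAt.sum fun i hi => hu i hi e x h

variable [T2Space X] [CompactSpace X]

/-- one piece, supported in a chart -/
theorem intX_det_piece {b : Chart n X → Cm n → Matrix (Fin n) (Fin n) ℂ} (hb : IsClosedForm b)
    {v : X → ℝ} (hv : SmoothFn (n := n) v) {e : Chart n X} (he : e ∈ atlas (Cm n) X)
    (hs : tsupport v ⊆ e.source) :
    intX (fun e z => (b e z + cHess (fun y => v (e.symm y)) z).det.re) =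
      intX (fun e z => (b e z).det.re) := by
  have hd : ∀ (e' : Chart n X) x, At e' x → x ∉ tsupport v →
      cHess (fun y => v (e'.symm y)) (e' x) = 0 := by
    intro e' x hx hxv
    apply cHess_zero_of_notMem
    rw [notMem_tsupport_iff_eventuallyEq]
    have h1 : ∀ᶠ y in 𝓝 (e' x), e'.symm y ∈ (tsupport v)ᶜ := by
      apply (e'.continuousAt_symm (e'.map_source hx.2)).eventually_mem
      rw [e'.left_inv hx.2]
      exact (isClosed_tsupport v).isOpen_compl.mem_nhds hxv
    filter_upwards [h1] with y hy
    exact image_eq_zero_of_notMem_tsupport hy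
  have hbv : IsClosedForm fun e z => b e z + cHess (fun y => v (e.symm y)) z :=
    hb.add (isClosedForm_cHess hv)
  have hD := hbv.isDensity.sub hb.isDensity
  rw [← sub_eq_zero, ← intX_sub hbv.isDensity hb.isDensity,
    intX_of_support hD he (isClosed_tsupport v) hs (fun e' x hx hxv => by
      simp only [hd e' x hx hxv, add_zero, sub_self])]
  set u : Cm n → ℝ := e.target.indicator (fun z => v (e.symm z)) with hu
  set K : Set (Cm n) := e '' tsupport v with hK
  have hKc : IsCompact K :=
    (isClosed_tsupport v).isCompact.image_of_continuousOn (e.continuousOn.mono hs)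
  have hKt : K ⊆ e.target := by
    rintro _ ⟨x, hx, rfl⟩; exact e.map_source (hs hx)
  have hsupp : Function.support u ⊆ K := by
    intro z hz
    simp only [hu, Function.mem_support] at hz
    have hzt : z ∈ e.target := by
      by_contra h; exact hz (indicator_of_notMem h _)
    rw [indicator_of_mem hzt] at hz
    exact ⟨e.symm z, subset_tsupport _ hz, e.right_inv hzt⟩
  have hts : tsupport u ⊆ K := closure_minimal hsupp hKc.isClosed
  have hucs : HasCompactSupport u := hKc.of_isClosed_subset (isClosed_tsupport u) hts
  have hue : ∀ z ∈ e.target, u =ᶠ[𝓝 z] fun z => v (e.symm z) := by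
    intro z hz
    filter_upwards [e.open_target.mem_nhds hz] with y hy
    rw [hu, indicator_of_mem hy]
  have hus : ContDiff ℝ ∞ u := by
    rw [contDiff_iff_contDiffAt]
    intro z
    by_cases hz : z ∈ e.target
    · have := hv e (e.symm z) ⟨he, e.map_target hz⟩
      rw [e.right_inv hz] at this
      exact this.congr_of_eventuallyEq (hue z hz)
    · exact contDiffAt_const.congr_of_eventuallyEq
        (notMem_tsupport_iff_eventuallyEq.1 fun h => hz (hKt (hts h)))
  have hsm : ∀ z ∈ e.target, ∀ i j, ContDiffAt ℝ ∞ (fun y => b e y i j) z := by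
    intro z hz i j
    have := hb.smooth e (e.symm z) ⟨he, e.map_target hz⟩ i j
    rwa [e.right_inv hz] at this
  have hcl : ∀ z ∈ e.target, ∀ i k l,
      dz i (fun y => b e y k l) z = dz k (fun y => b e y i l) z := by
    intro z hz i k l
    have := hb.closed e (e.symm z) ⟨he, e.map_target hz⟩ i k l
    rwa [e.right_inv hz] at this
  have := local_stokes e.open_target hsm hcl hus hucs (hts.trans hKt)
  rw [← this]
  refine setIntegral_congr_fun e.open_target.measurableSet fun z hz => ?_
  rw [cHess_congr (hue z hz)]

/-- the integral of `det (b + i∂∂̄u)` does not depend on `u` -/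
theorem intX_det_add_cHess {b : Chart n X → Cm n → Matrix (Fin n) (Fin n) ℂ}
    (hb : IsClosedForm b) {u : X → ℝ} (hu : SmoothFn (n := n) u) :
    intX (fun e z => (b e z + cHess (fun y => u (e.symm y)) z).det.re) =
      intX (fun e z => (b e z).det.re) := by
  classical
  set P := part n X with hP
  have hp : ∀ i, SmoothFn (n := n) (fun x => P.ρ i x * u x) := fun i =>
    SmoothFn.mul (P.smooth i) hu
  set S : Finset (Fin P.N) → X → ℝ := fun s x => ∑ i ∈ s, P.ρ i x * u x with hS
  have hSs : ∀ s, SmoothFn (n := n) (S s) := fun s => SmoothFn.sum s fun i _ => hp i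
  have key : ∀ s : Finset (Fin P.N),
      intX (fun e z => (b e z + cHess (fun y => S s (e.symm y)) z).det.re)
        = intX (fun e z => (b e z).det.re) := by
    intro s
    induction s using Finset.induction_on with
    | empty =>
      refine intX_congr fun e x hx => ?_
      have : cHess (fun y => S ∅ (e.symm y)) (e x) = 0 := by
        apply cHess_zero_of_notMem
        rw [notMem_tsupport_iff_eventuallyEq]
        exact Eventually.of_forall fun y => by simp [hS]
      rw [this, add_zero]
    | insert a s ha ih =>
      have hbs : IsClosedForm fun e z => b e z + cHess (fun y => S s (e.symm y)) z :=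
        hb.add (isClosedForm_cHess (hSs s))
      have hstep := intX_det_piece hbs (hp a) (P.mem a)
        (tsupport_mul_subset_left'.trans (P.supp a))
      refine Eq.trans (intX_congr fun e x hx => ?_) (hstep.trans ih)
      have h1 : ContDiffAt ℝ 2 (fun y => P.ρ a (e.symm y) * u (e.symm y)) (e x) :=
        SmoothFn.two (hp a) e x hx
      have h2 : ContDiffAt ℝ 2 (fun y => S s (e.symm y)) (e x) := SmoothFn.two (hSs s) e x hx
      have h3 : (fun y => S (insert a s) (e.symm y)) = fun y =>
          P.ρ a (e.symm y) * u (e.symm y) + S s (e.symm y) := by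
        funext y; simp only [hS]; rw [Finset.sum_insert ha]
      rw [h3, cHess_add h1 h2, add_comm (cHess (fun y => P.ρ a (e.symm y) * u (e.symm y)) (e x)),
        ← add_assoc]
  rw [← key Finset.univ]
  refine intX_congr fun e x hx => ?_
  have h3 : (fun y => S Finset.univ (e.symm y)) = fun y => u (e.symm y) := by
    funext y; simp only [hS]; rw [← Finset.sum_mul, P.sum, one_mul]
  rw [h3]

/-- the difference of two metrics on the canonical bundle is a function -/
lemma exists_diff {φ ψ : Chart n X → Cm n → ℝ} (hφ : IsCanonicalMetric φ)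
    (hψ : IsCanonicalMetric ψ) : ∃ u : X → ℝ, SmoothFn (n := n) u ∧
      ∀ e x, At e x → cHess (φ e) (e x) = cHess (ψ e) (e x) + cHess (fun y => u (e.symm y)) (e x) := by
  set u : X → ℝ := fun x => φ (chartAt (Cm n) x) (chartAt (Cm n) x x) -
    ψ (chartAt (Cm n) x) (chartAt (Cm n) x x) with hu
  have hu' : ∀ e x, At e x → u x = φ e (e x) - ψ e (e x) := fun e x h =>
    canonical_diff hφ.change hψ.change ⟨chart_mem_atlas _ x, mem_chart_source _ x⟩ h
  have hev : ∀ (e : Chart n X) x, At e x →
      (fun y => u (e.symm y)) =ᶠ[𝓝 (e x)] fun y => φ e y - ψ e y := by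
    intro e x h
    filter_upwards [h.nhds_target] with y hy
    rw [hu' e _ (At.of_target h.1 hy), e.right_inv hy]
  refine ⟨u, fun e x h => ?_, fun e x h => ?_⟩
  · exact ((hφ.smooth e x h).sub (hψ.smooth e x h)).congr_of_eventuallyEq (hev e x h)
  · rw [cHess_congr (hev e x h), cHess_sub ((hφ.smooth e x h).of_le two_le_inf)
      ((hψ.smooth e x h).of_le two_le_inf)]
    abel

/-- the intersection number `∫ (i∂∂̄φ + b)^n` does not depend on the metric `φ` -/
theorem intX_canonical {φ ψ : Chart n X → Cm n → ℝ} (hφ : IsCanonicalMetric φ)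
    (hψ : IsCanonicalMetric ψ) {b : Chart n X → Cm n → Matrix (Fin n) (Fin n) ℂ}
    (hb : IsClosedForm b) :
    intX (fun e z => (cHess (φ e) z + b e z).det.re) =
      intX (fun e z => (cHess (ψ e) z + b e z).det.re) := by
  obtain ⟨u, hu, h⟩ := exists_diff hφ hψ
  rw [← intX_det_add_cHess ((isClosedForm_canonical hψ).add hb) hu]
  refine intX_congr fun e x hx => ?_
  rw [h e x hx]
  congr 2
  abel

end

end Vale.Agent.P272.K.INT
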