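import Mathlib.Analysis.Calculus.MeanValue
import Mathlib.Analysis.Matrix.PosDef
import Vale.Agent.P272.K.INT.Global

/-! The polynomial `t ↦ (K_X + t[w])^n`, its derivative, and positivity by Gronwall. -/

open scoped Manifold ContDiff ComplexOrder ComplexConjugate Topology
open MeasureTheory Set Filter

noncomputable section

namespace Vale.Agent.P272.K.INT

variable {n : ℕ} {X : Type*} [TopologicalSpace X] [ChartedSpace (Cm n) X]
  [IsManifold 𝓘(ℂ, Cm n) ω X] [T2Space X] [CompactSpace X]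

omit [IsManifold 𝓘(ℂ, Cm n) ω X] [T2Space X] [CompactSpace X] in
/-- `∑ r, det (g with row r replaced by row r of w) = det g * tr (g⁻¹ w)` -/
lemma sum_det_updateRow {g w : Matrix (Fin n) (Fin n) ℂ} (hg : IsUnit g.det) :
    ∑ r, (g.updateRow r (w r)).det = (g⁻¹ * w).trace * g.det := by
  have h1 : ∀ r, (g.updateRow r (w r)).det = ∑ l, g.adjugate l r * w r l := by
    intro r
    have : (g.updateRow r (w r)).det = (g.transpose.updateCol r (w r)).det := by
      rw [← Matrix.det_transpose, Matrix.updateCol_transpose]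
    rw [this, ← Matrix.cramer_apply, Matrix.cramer_eq_adjugate_mulVec, Matrix.mulVec,
      dotProduct]
    refine Finset.sum_congr rfl fun l _ => ?_
    rw [← Matrix.adjugate_transpose, Matrix.transpose_apply]
  have h2 : g⁻¹ = (g.det)⁻¹ • g.adjugate := by
    rw [Matrix.inv_def, Ring.inverse_eq_inv']
  rw [h2, Matrix.smul_mul, Matrix.trace_smul, smul_eq_mul, mul_comm, ← mul_assoc,
    mul_inv_cancel₀ hg.ne_zero, one_mul, Matrix.trace]
  simp only [Matrix.diag_apply, Matrix.mul_apply, h1]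
  rw [Finset.sum_comm]

/-- derivative of the integral of a density depending polynomially on a parameter -/
theorem hasDerivAt_intX {m : ℕ} {D : ℝ → Chart n X → Cm n → ℝ} (hD : ∀ t, IsDensity (D t))
    (hp : ∀ e x, At e x → IsPolyN m fun t => D t e (e x)) (t : ℝ) :
    HasDerivAt (fun t => intX (D t)) (intX fun e z => deriv (fun s => D s e z) t) t := by
  have h1 : ∀ t, intX (D t) = ∑ j : Fin (m + 1), lag m j t * intX (D j) := by
    intro t
    have : ∀ j : Fin (m + 1), lag m j t * intX (D j) = intX fun e z => lag m j t * D j e z :=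
      fun j => (intX_const_mul _ _).symm
    simp only [this]
    have hj : ∀ j : Fin (m + 1), IsDensity fun e z => lag m j t * D (j : ℝ) e z :=
      fun j => (hD j).const_mul _
    rw [← intX_sum _ fun j _ => hj j]
    exact intX_congr fun e x hx => (hp e x hx).eq_sum t
  have h2 : (fun t => intX (D t)) = fun t => ∑ j : Fin (m + 1), lag m j t * intX (D j) :=
    funext h1
  have h3 : intX (fun e z => deriv (fun s => D s e z) t) =
      ∑ j : Fin (m + 1), deriv (lag m j) t * intX (D j) := by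
    have : ∀ j : Fin (m + 1), deriv (lag m j) t * intX (D j) =
        intX fun e z => deriv (lag m j) t * D j e z := fun j => (intX_const_mul _ _).symm
    simp only [this]
    have hj : ∀ j : Fin (m + 1), IsDensity fun e z => deriv (lag m j) t * D (j : ℝ) e z :=
      fun j => (hD j).const_mul _
    rw [← intX_sum _ fun j _ => hj j]
    exact intX_congr fun e x hx => (hp e x hx).deriv t
  rw [h2, h3]
  exact HasDerivAt.fun_sum fun j _ => (lag_differentiable m j t).hasDerivAt.mul_const _

variable {w : Chart n X → Cm n → Matrix (Fin n) (Fin n) ℂ} {φ : Chart n X → Cm n → ℝ}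

omit [IsManifold 𝓘(ℂ, Cm n) ω X] [T2Space X] [CompactSpace X] in
lemma posDef_det_re {g : Matrix (Fin n) (Fin n) ℂ} (hg : g.PosDef) :
    0 < g.det.re ∧ g.det.im = 0 := by
  have := hg.det_pos
  rw [Complex.lt_def] at this
  exact ⟨this.1, this.2.symm⟩

/-- `P t = (K_X + t [w])^n` -/
def PP (φ : Chart n X → Cm n → ℝ) (w : Chart n X → Cm n → Matrix (Fin n) (Fin n) ℂ) (t : ℝ) : ℝ :=
  intX fun e z => (cHess (φ e) z + (t : ℂ) • w e z).det.re

lemma PP_eq (hφ : IsCanonicalMetric φ) {ψ : Chart n X → Cm n → ℝ} (hψ : IsCanonicalMetric ψ)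
    (hw : IsClosedForm w) (t : ℝ) : PP φ w t = PP ψ w t :=
  intX_canonical hφ hψ (hw.smul (t : ℂ))

lemma PP_hasDerivAt (hφ : IsCanonicalMetric φ) (hw : IsClosedForm w) (t : ℝ) :
    HasDerivAt (PP φ w) (intX fun e z =>
      (∑ r, ((cHess (φ e) z + (t : ℂ) • w e z).updateRow r (w e z r)).det).re) t := by
  have h := hasDerivAt_intX (m := n)
    (D := fun t e z => (cHess (φ e) z + (t : ℂ) • w e z).det.re)
    (fun t => ((isClosedForm_canonical hφ).add (hw.smul (t : ℂ))).isDensity)
    (fun e x _ => isPolyN_det _ _) t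
  have h2 : (intX fun e z => deriv (fun s : ℝ => (cHess (φ e) z + (s : ℂ) • w e z).det.re) t) =
      intX fun e z =>
        (∑ r, ((cHess (φ e) z + (t : ℂ) • w e z).updateRow r (w e z r)).det).re :=
    intX_congr fun e x _ => (hasDerivAt_det_line _ _ t).deriv
  rw [← h2]
  exact h

/-- `P'(t) = ∫ tr_g w dv_g` -/
lemma PP_hasDerivAt' (hφ : IsCanonicalMetric φ) (hw : IsClosedForm w) {t : ℝ}
    (hpos : ∀ e x, At e x → (cHess (φ e) (e x) + (t : ℂ) • w e (e x)).PosDef) :
    HasDerivAt (PP φ w) (intX fun e z =>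
      ((cHess (φ e) z + (t : ℂ) • w e z)⁻¹ * w e z).trace.re *
        (cHess (φ e) z + (t : ℂ) • w e z).det.re) t := by
  have h := PP_hasDerivAt hφ hw t
  have h2 : (intX fun e z =>
        (∑ r, ((cHess (φ e) z + (t : ℂ) • w e z).updateRow r (w e z r)).det).re) =
      intX fun e z => ((cHess (φ e) z + (t : ℂ) • w e z)⁻¹ * w e z).trace.re *
        (cHess (φ e) z + (t : ℂ) • w e z).det.re := by
    refine intX_congr fun e x hx => ?_
    obtain ⟨h1, h2⟩ := posDef_det_re (hpos e x hx)
    rw [sum_det_updateRow (isUnit_iff_ne_zero.2 fun h0 => by rw [h0] at h1; simp at h1),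
      Complex.mul_re, h2, mul_zero, sub_zero]
  rw [← h2]
  exact h

/-- Gronwall: `P' ≤ C P` and `P > 0` on `(a, ∞)` give `P a > 0`. -/
lemma gronwall_pos {P P' : ℝ → ℝ} {a C : ℝ} (hP : ∀ t, HasDerivAt P (P' t) t)
    (h0 : ∀ t, a < t → 0 < P t) (h1 : ∀ t, a < t → P' t ≤ C * P t) : 0 < P a := by
  set f : ℝ → ℝ := fun t => Real.exp (-C * t) * P t with hf
  have hfd : ∀ t, HasDerivAt f (Real.exp (-C * t) * (P' t - C * P t)) t := by
    intro t
    have e1 : HasDerivAt (fun t => Real.exp (-C * t)) (Real.exp (-C * t) * (-C)) t := by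
      have := ((hasDerivAt_id t).const_mul (-C)).exp
      simpa using this
    have := e1.mul (hP t)
    refine this.congr_deriv ?_
    ring
  have hanti : AntitoneOn f (Icc a (a + 1)) := by
    apply antitoneOn_of_deriv_nonpos (convex_Icc _ _)
    · exact fun t _ => (hfd t).continuousAt.continuousWithinAt
    · exact fun t _ => (hfd t).differentiableAt.differentiableWithinAt
    · intro t ht
      rw [interior_Icc] at ht
      rw [(hfd t).deriv]
      exact mul_nonpos_of_nonneg_of_nonpos (Real.exp_pos _).le (by linarith [h1 t ht.1])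
  have h2 : f (a + 1) ≤ f a :=
    hanti ⟨le_rfl, by linarith⟩ ⟨by linarith, le_rfl⟩ (by linarith)
  have h3 : 0 < f (a + 1) := mul_pos (Real.exp_pos _) (h0 _ (by linarith))
  have h4 : 0 < f a := h3.trans_le h2
  exact (pos_iff_pos_of_mul_pos h4).1 (Real.exp_pos _)

/-- OUTPUT of the block: positivity of `(K_X + a[w])^n` from the integrated inequality. -/
theorem pos_of_ineq [Nonempty X] (hw : IsKahler w) (a : ℝ) (hφ : IsCanonicalMetric φ) (C : ℝ)
    (H : ∀ t, a < t → ∃ ψ : Chart n X → Cm n → ℝ, IsCanonicalMetric ψ ∧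
      (∀ e x, At e x → (cHess (ψ e) (e x) + (t : ℂ) • w e (e x)).PosDef) ∧
      intX (fun e z => ((cHess (ψ e) z + (t : ℂ) • w e z)⁻¹ * w e z).trace.re *
        (cHess (ψ e) z + (t : ℂ) • w e z).det.re) ≤
      C * intX (fun e z => (cHess (ψ e) z + (t : ℂ) • w e z).det.re)) :
    ∃ I : ℝ, 0 < I ∧ IsIntegral (fun e z => (cHess (φ e) z + (a : ℂ) • w e z).det.re) I := by
  have hwc := IsKahler.isClosedForm hw
  have hdens : ∀ {ψ : Chart n X → Cm n → ℝ}, IsCanonicalMetric ψ → ∀ t : ℝ,
      IsDensity (fun e z => (cHess (ψ e) z + (t : ℂ) • w e z).det.re) := fun hψ t =>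
    ((isClosedForm_canonical hψ).add (hwc.smul (t : ℂ))).isDensity
  refine ⟨PP φ w a, ?_, (hdens hφ a).isIntegral⟩
  have hd : ∀ t, HasDerivAt (PP φ w) (deriv (PP φ w) t) t := fun t =>
    (PP_hasDerivAt hφ hwc t).differentiableAt.hasDerivAt
  refine gronwall_pos (C := C) hd (fun t ht => ?_) (fun t ht => ?_)
  · obtain ⟨ψ, hψ, hpos, -⟩ := H t ht
    rw [PP_eq hφ hψ hwc]
    exact intX_pos (hdens hψ t) fun e x hx => (posDef_det_re (hpos e x hx)).1
  · obtain ⟨ψ, hψ, hpos, hle⟩ := H t ht
    have e1 : PP φ w = PP ψ w := funext fun t => PP_eq hφ hψ hwc t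
    rw [e1, (PP_hasDerivAt' hψ hwc hpos).deriv]
    exact hle

end Vale.Agent.P272.K.INT
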