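import Vale.Agent.P272.K.Asm.Phase1
import Vale.Agent.P272.K.INT.Gronwall

/-! Output of the block INT in the form used by the assembly. -/

open scoped Manifold ContDiff ComplexOrder Topology
open Complex Set Filter MeasureTheory

noncomputable section

namespace Vale.Agent.P272.K.INT

theorem posOfIneq (n : ℕ) (X : Type) [TopologicalSpace X] [T2Space X] [CompactSpace X]
    [Nonempty X] [ChartedSpace (Cm n) X] [IsManifold 𝓘(ℂ, Cm n) ω X] : PosOfIneq n X :=
  fun _ hw a _ hφ C H => pos_of_ineq hw a hφ C H

end Vale.Agent.P272.K.INT
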