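import Mathlib.Topology.Instances.Matrix
import Mathlib.Analysis.Calculus.FDeriv.Analytic
import Mathlib.LinearAlgebra.Matrix.Determinant.Basic
import Vale.Agent.P272.K.INT.Wirt

/-! Derivative of the determinant and the Piola identity for closed `(1,1)`-forms. -/

open scoped Manifold ContDiff ComplexOrder ComplexConjugate Topology
open MeasureTheory Set Filter

noncomputable section

namespace Vale.Agent.P272.K.INT

variable {n : ℕ}

/-- the determinant as a continuous multilinear map of the rows -/
def detC (n : ℕ) : ContinuousMultilinearMap ℂ (fun _ : Fin n => Fin n → ℂ) ℂ where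
  toMultilinearMap := (Matrix.detRowAlternating (n := Fin n) (R := ℂ)).toMultilinearMap
  cont := by
    change Continuous fun M : Fin n → Fin n → ℂ => Matrix.det (Matrix.of M)
    exact Continuous.matrix_det continuous_id

lemma detC_apply (M : Matrix (Fin n) (Fin n) ℂ) : detC n M = M.det := rfl

section
variable {E : Type*} [NormedAddCommGroup E] [NormedSpace ℝ E]

lemma hasFDerivAt_det {M : E → Matrix (Fin n) (Fin n) ℂ} {z : E}
    {M' : Fin n → Fin n → (E →L[ℝ] ℂ)} (hM : ∀ i j, HasFDerivAt (fun y => M y i j) (M' i j) z) :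
    HasFDerivAt (fun y => (M y).det)
      ((((detC n).linearDeriv (M z)).restrictScalars ℝ).comp
        (ContinuousLinearMap.pi fun i => ContinuousLinearMap.pi fun j => M' i j)) z := by
  have h1 : HasFDerivAt (fun y => (M y : Fin n → Fin n → ℂ))
      (ContinuousLinearMap.pi fun i => ContinuousLinearMap.pi fun j => M' i j) z :=
    hasFDerivAt_pi.2 fun i => hasFDerivAt_pi.2 fun j => hM i j
  have h2 : HasFDerivAt (detC n) (((detC n).linearDeriv (M z)).restrictScalars ℝ) (M z) :=
    ((detC n).hasFDerivAt (M z)).restrictScalars ℝ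
  exact h2.comp z h1

lemma fderiv_det {M : E → Matrix (Fin n) (Fin n) ℂ} {z : E}
    (hM : ∀ i j, DifferentiableAt ℝ (fun y => M y i j) z) (v : E) :
    fderiv ℝ (fun y => (M y).det) z v =
      ∑ r, ((M z).updateRow r (fun l => fderiv ℝ (fun y => M y r l) z v)).det := by
  rw [(hasFDerivAt_det fun i j => (hM i j).hasFDerivAt).fderiv]
  simp only [ContinuousLinearMap.comp_apply, ContinuousLinearMap.coe_restrictScalars']
  exact ContinuousMultilinearMap.linearDeriv_apply (detC n) (M z) _

lemma differentiableAt_det {M : E → Matrix (Fin n) (Fin n) ℂ} {z : E}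
    (hM : ∀ i j, DifferentiableAt ℝ (fun y => M y i j) z) :
    DifferentiableAt ℝ (fun y => (M y).det) z :=
  (hasFDerivAt_det fun i j => (hM i j).hasFDerivAt).differentiableAt

lemma contDiffAt_det {M : E → Matrix (Fin n) (Fin n) ℂ} {z : E} {k : WithTop ℕ∞}
    (hM : ∀ i j, ContDiffAt ℝ k (fun y => M y i j) z) :
    ContDiffAt ℝ k (fun y => (M y).det) z := by
  have : (fun y => (M y).det) = fun y => ∑ σ : Equiv.Perm (Fin n),
      (Equiv.Perm.sign σ : ℂ) * ∏ i, M y (σ i) i := by
    funext y; rw [Matrix.det_apply']
  rw [this]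
  exact ContDiffAt.sum fun σ _ => contDiffAt_const.mul (contDiffAt_prod fun i _ => hM _ _)

end

lemma det_updateRow_lin (M : Matrix (Fin n) (Fin n) ℂ) (r : Fin n) (u v : Fin n → ℂ) (a b : ℂ) :
    (M.updateRow r (fun l => a * u l + b * v l)).det =
      a * (M.updateRow r u).det + b * (M.updateRow r v).det := by
  have : (fun l => a * u l + b * v l) = a • u + b • v := by ext l; simp
  rw [this, Matrix.det_updateRow_add, Matrix.det_updateRow_smul, Matrix.det_updateRow_smul]

lemma dz_det {M : Cm n → Matrix (Fin n) (Fin n) ℂ} {z : Cm n}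
    (hM : ∀ i j, DifferentiableAt ℝ (fun y => M y i j) z) (i : Fin n) :
    dz i (fun y => (M y).det) z =
      ∑ r, ((M z).updateRow r (fun l => dz i (fun y => M y r l) z)).det := by
  rw [dz_eq, fderiv_det hM, fderiv_det hM]
  have : ∀ r, ((M z).updateRow r (fun l => dz i (fun y => M y r l) z)).det =
      (1 / 2 : ℂ) * ((M z).updateRow r
        (fun l => fderiv ℝ (fun y => M y r l) z (Pi.single i 1))).det +
      (-(1 / 2 : ℂ) * Complex.I) * ((M z).updateRow r
        (fun l => fderiv ℝ (fun y => M y r l) z (Pi.single i Complex.I))).det := by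
    intro r
    rw [← det_updateRow_lin]
    congr 2
    ext l
    rw [dz_eq]; ring
  simp only [this, Finset.sum_add_distrib, ← Finset.mul_sum]
  ring

/-- antisymmetric double sums vanish -/
lemma sum_antisymm {T : Fin n → Fin n → ℂ} (hT : ∀ r s, r ≠ s → T r s = - T s r) :
    ∑ r, ∑ s ∈ Finset.univ.erase r, T r s = 0 := by
  classical
  have h1 : ∀ r, ∑ s ∈ Finset.univ.erase r, T r s = ∑ s, if r = s then 0 else T r s := by
    intro r
    rw [← Finset.sum_erase (s := Finset.univ) (a := r)]
    · refine Finset.sum_congr rfl fun s hs => ?_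
      rw [if_neg (Finset.ne_of_mem_erase hs).symm]
    · simp
  simp only [h1]
  have h2 : ∑ r, ∑ s, (if r = s then 0 else T r s) = -∑ r, ∑ s, (if r = s then 0 else T r s) := by
    conv_lhs => rw [Finset.sum_comm]
    rw [← Finset.sum_neg_distrib]
    refine Finset.sum_congr rfl fun r _ => ?_
    rw [← Finset.sum_neg_distrib]
    refine Finset.sum_congr rfl fun s _ => ?_
    by_cases h : r = s
    · subst h; simp
    · rw [if_neg h, if_neg (fun h' => h h'.symm), hT s r (fun h' => h h'.symm)]
  linear_combination (1 / 2 : ℂ) * h2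

/-- The Piola identity: for a closed matrix function `M` and a vector field `a` the expression
`∑ r, det (M with row r replaced by ∂_r a)` is a divergence. -/
theorem piola {M : Cm n → Matrix (Fin n) (Fin n) ℂ} {a : Cm n → Fin n → ℂ} {z : Cm n}
    (hM : ∀ i j, DifferentiableAt ℝ (fun y => M y i j) z)
    (ha : ∀ l, DifferentiableAt ℝ (fun y => a y l) z)
    (hcl : ∀ i k l, dz i (fun y => M y k l) z = dz k (fun y => M y i l) z) :
    ∑ r, dz r (fun y => ((M y).updateRow r (a y)).det) z =
      ∑ r, ((M z).updateRow r (fun l => dz r (fun y => a y l) z)).det := by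
  classical
  have hd : ∀ r i j, DifferentiableAt ℝ (fun y => (M y).updateRow r (a y) i j) z := by
    intro r i j
    by_cases h : i = r
    · subst h; simpa [Matrix.updateRow_self] using ha j
    · simpa [Matrix.updateRow_ne h] using hM i j
  have h1 : ∀ r, dz r (fun y => ((M y).updateRow r (a y)).det) z =
      ((M z).updateRow r (fun l => dz r (fun y => a y l) z)).det +
      ∑ s ∈ Finset.univ.erase r, (((M z).updateRow r (a z)).updateRow s
        (fun l => dz r (fun y => M y s l) z)).det := by
    intro r
    rw [dz_det (hd r), ← Finset.add_sum_erase _ _ (Finset.mem_univ r)]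
    congr 1
    · have : (fun l => dz r (fun y => (M y).updateRow r (a y) r l) z) =
          fun l => dz r (fun y => a y l) z := by
        ext l; simp only [Matrix.updateRow_self]
      rw [this, Matrix.updateRow_idem]
    · refine Finset.sum_congr rfl fun s hs => ?_
      have hs' : s ≠ r := Finset.ne_of_mem_erase hs
      congr 2
      ext l
      simp only [Matrix.updateRow_ne hs']
  simp only [h1, Finset.sum_add_distrib]
  rw [sum_antisymm, add_zero]
  intro r s hrs
  have h2 : (fun l => dz r (fun y => M y s l) z) = fun l => dz s (fun y => M y r l) z := by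
    ext l; exact hcl r s l
  rw [h2]
  set v := fun l => dz s (fun y => M y r l) z
  have h3 : ((M z).updateRow s (a z)).updateRow r v =
      (((M z).updateRow r (a z)).updateRow s v).submatrix (Equiv.swap r s) id := by
    ext i j
    simp only [Matrix.submatrix_apply, id]
    by_cases hi : i = r
    · subst hi; simp [Matrix.updateRow_self]
    · by_cases hi' : i = s
      · subst hi'
        rw [Matrix.updateRow_ne hi, Matrix.updateRow_self, Equiv.swap_apply_right,
          Matrix.updateRow_ne hrs, Matrix.updateRow_self]
      · rw [Matrix.updateRow_ne hi, Matrix.updateRow_ne hi', Equiv.swap_apply_of_ne_of_ne hi hi',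
          Matrix.updateRow_ne hi', Matrix.updateRow_ne hi]
  rw [h3, Matrix.det_permute, Equiv.Perm.sign_swap hrs]
  simp

end Vale.Agent.P272.K.INT
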