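import Mathlib.LinearAlgebra.Lagrange
import Mathlib.LinearAlgebra.Matrix.Polynomial
import Mathlib.Analysis.Calculus.Deriv.Polynomial
import Vale.Agent.P272.K.INT.Piola

/-! Polynomial dependence on a real parameter and Lagrange interpolation. -/

open scoped ContDiff ComplexOrder ComplexConjugate Topology
open MeasureTheory Set Filter

noncomputable section

namespace Vale.Agent.P272.K.INT

variable {n : ℕ}

/-- `f` is a polynomial function of degree at most `m` -/
def IsPolyN (m : ℕ) (f : ℝ → ℝ) : Prop :=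
  ∃ a : ℕ → ℝ, ∀ t, f t = ∑ k ∈ Finset.range (m + 1), a k * t ^ k

/-- Lagrange basis functions -/
def lag (m : ℕ) (j : Fin (m + 1)) (t : ℝ) : ℝ :=
  (Lagrange.basis (Finset.univ : Finset (Fin (m + 1))) (fun i => (i : ℝ)) j).eval t

lemma lag_differentiable (m : ℕ) (j : Fin (m + 1)) : Differentiable ℝ (lag m j) :=
  Polynomial.differentiable _

lemma IsPolyN.eq_sum {m : ℕ} {f : ℝ → ℝ} (hf : IsPolyN m f) (t : ℝ) :
    f t = ∑ j : Fin (m + 1), lag m j t * f j := by
  obtain ⟨a, ha⟩ := hf
  set p : Polynomial ℝ := ∑ k ∈ Finset.range (m + 1), Polynomial.C (a k) * Polynomial.X ^ k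
    with hp
  have hev : ∀ t, p.eval t = f t := by
    intro t
    rw [hp, Polynomial.eval_finsetSum, ha]
    simp
  have hdeg : p.degree < (Finset.univ : Finset (Fin (m + 1))).card := by
    rw [Finset.card_univ, Fintype.card_fin]
    refine (Polynomial.degree_sum_le _ _).trans_lt ?_
    rw [Finset.sup_lt_iff (by exact WithBot.bot_lt_coe _)]
    intro k hk
    refine (Polynomial.degree_C_mul_X_pow_le _ _).trans_lt ?_
    have : k < m + 1 := Finset.mem_range.1 hk
    exact_mod_cast this
  have hinj : Set.InjOn (fun i : Fin (m + 1) => (i : ℝ)) (Finset.univ : Finset (Fin (m + 1))) := by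
    intro i _ j _ h
    simp only at h
    exact Fin.ext (by exact_mod_cast h)
  have h := Lagrange.eq_interpolate hinj hdeg
  have h2 := congrArg (Polynomial.eval t) h
  rw [hev, Lagrange.interpolate_apply, Polynomial.eval_finsetSum] at h2
  rw [h2]
  refine Finset.sum_congr rfl fun j _ => ?_
  rw [Polynomial.eval_mul, Polynomial.eval_C, hev, mul_comm]
  rfl

lemma IsPolyN.differentiable {m : ℕ} {f : ℝ → ℝ} (hf : IsPolyN m f) : Differentiable ℝ f := by
  have : f = fun t => ∑ j : Fin (m + 1), lag m j t * f j := funext hf.eq_sum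
  rw [this]
  exact Differentiable.fun_sum fun j _ => (lag_differentiable m j).mul_const _

lemma IsPolyN.deriv {m : ℕ} {f : ℝ → ℝ} (hf : IsPolyN m f) (t : ℝ) :
    deriv f t = ∑ j : Fin (m + 1), deriv (lag m j) t * f j := by
  have h1 : f = fun t => ∑ j : Fin (m + 1), lag m j t * f j := funext hf.eq_sum
  conv_lhs => rw [h1]
  rw [deriv_fun_sum fun j _ => ((lag_differentiable m j).mul_const _) t]
  exact Finset.sum_congr rfl fun j _ => deriv_mul_const (lag_differentiable m j t) _

lemma IsPolyN.const (m : ℕ) (c : ℝ) : IsPolyN m fun _ => c :=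
  ⟨fun k => if k = 0 then c else 0, fun t => by
    rw [Finset.sum_eq_single 0]
    · simp
    · intro k _ hk; simp [hk]
    · simp⟩

lemma sum_lag (m : ℕ) (t : ℝ) : ∑ j : Fin (m + 1), lag m j t = 1 := by
  have := (IsPolyN.const m 1).eq_sum t
  simpa using this.symm

lemma sum_deriv_lag (m : ℕ) (t : ℝ) : ∑ j : Fin (m + 1), deriv (lag m j) t = 0 := by
  have := (IsPolyN.const m 1).deriv t
  simpa using this.symm

lemma isPolyN_det (A B : Matrix (Fin n) (Fin n) ℂ) :
    IsPolyN n fun t => (A + (t : ℂ) • B).det.re := by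
  set q : Polynomial ℂ := Matrix.det ((Polynomial.X : Polynomial ℂ) • B.map Polynomial.C
    + A.map Polynomial.C) with hq
  have hdeg : q.natDegree < n + 1 := by
    have := Polynomial.natDegree_det_X_add_C_le B A
    rw [Fintype.card_fin] at this
    exact Nat.lt_succ_of_le this
  have hev : ∀ t : ℂ, q.eval t = (A + t • B).det := by
    intro t
    have h1 : q.eval t = (Polynomial.evalRingHom t) q := rfl
    rw [h1, hq, RingHom.map_det]
    congr 1
    ext i j
    simp [RingHom.mapMatrix_apply, add_comm]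
    ring
  refine ⟨fun k => (q.coeff k).re, fun t => ?_⟩
  simp only
  rw [← hev, Polynomial.eval_eq_sum_range' hdeg, Complex.re_sum]
  refine Finset.sum_congr rfl fun k _ => ?_
  have : (q.coeff k * (t : ℂ) ^ k) = q.coeff k * ((t ^ k : ℝ) : ℂ) := by push_cast; ring
  rw [this, Complex.re_mul_ofReal]

lemma hasDerivAt_det_line (A B : Matrix (Fin n) (Fin n) ℂ) (s : ℝ) :
    HasDerivAt (fun t : ℝ => (A + (t : ℂ) • B).det.re)
      (∑ r, ((A + (s : ℂ) • B).updateRow r (B r)).det).re s := by
  have h0 : ∀ i j, HasDerivAt (fun t : ℝ => (A + (t : ℂ) • B) i j) (B i j) s := by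
    intro i j
    have : (fun t : ℝ => (A + (t : ℂ) • B) i j) = fun t : ℝ => A i j + (t : ℂ) * B i j := by
      ext t; simp
    rw [this]
    have h1 : HasDerivAt (fun t : ℝ => (t : ℂ)) 1 s := Complex.ofRealCLM.hasDerivAt
    simpa using (h1.mul_const (B i j)).const_add (A i j)
  have h1 : HasFDerivAt (fun t : ℝ => (A + (t : ℂ) • B).det) _ s :=
    hasFDerivAt_det fun i j => (h0 i j).hasFDerivAt
  have h2 := h1.hasDerivAt
  have h3 : fderiv ℝ (fun t : ℝ => (A + (t : ℂ) • B).det) s 1 =
      ∑ r, ((A + (s : ℂ) • B).updateRow r (B r)).det := by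
    rw [fderiv_det fun i j => (h0 i j).differentiableAt]
    refine Finset.sum_congr rfl fun r _ => ?_
    congr 2
    ext l
    rw [fderiv_apply_one_eq_deriv, (h0 r l).deriv]
  rw [← h1.fderiv, h3] at h2
  exact (Complex.reCLM.hasFDerivAt.comp_hasDerivAt s h2)

end Vale.Agent.P272.K.INT
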